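import Vale.Agent.P202.Embdim2.Cut

/-! From iterated sums of Hilbert functions to leading coefficients. -/

namespace Vale.Agent.P202.Embdim2

open Finset Filter Topology

theorem eventually_conv_lt : ∀ (n : ℕ) (a b : ℕ → ℕ),
    (∀ᶠ l in atTop, b l < a l) → ∀ᶠ i in atTop, conv n b i < conv n a i
  | 0, a, b, h => by simpa only [conv_zero] using h
  | n + 1, a, b, h => by
    simp only [← conv_succ]
    refine eventually_conv_lt n _ _ ?_
    obtain ⟨L, hL⟩ := eventually_atTop.1 h
    rw [eventually_atTop]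
    refine ⟨L + ∑ l ∈ range L, b l + 1, fun s hs => ?_⟩
    rw [← sum_range_add_sum_Ico b (show L ≤ s + 1 by omega),
      ← sum_range_add_sum_Ico a (show L ≤ s + 1 by omega)]
    have h1 : ∑ l ∈ Ico L (s + 1), (b l + 1) ≤ ∑ l ∈ Ico L (s + 1), a l :=
      sum_le_sum fun l hl => hL l (mem_Ico.1 hl).1
    rw [sum_add_distrib, sum_const, Nat.card_Ico, smul_eq_mul, mul_one] at h1
    omega

/-- If the iterated sums of `a` are at most those of `b` then so is the leading coefficient. -/
theorem le_of_conv_le {n d : ℕ} {a b : ℕ → ℕ} (h : ∀ i, conv n a i ≤ conv n b i) {eR eS : ℝ}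
    (hR : Tendsto (fun N : ℕ => (d.factorial : ℝ) * (a N : ℝ) / (N : ℝ) ^ d) atTop (𝓝 eR))
    (hS : Tendsto (fun N : ℕ => (d.factorial : ℝ) * (b N : ℝ) / (N : ℝ) ^ d) atTop (𝓝 eS)) :
    eR ≤ eS := by
  by_contra hne
  obtain ⟨m, hm1, hm2⟩ := exists_between (not_le.1 hne)
  have hev : ∀ᶠ l in atTop, b l < a l := by
    filter_upwards [hS.eventually (eventually_lt_nhds hm1), hR.eventually (eventually_gt_nhds hm2)]
      with l h1 h2
    by_contra hl
    have hle : (a l : ℝ) ≤ b l := by exact_mod_cast not_lt.1 hl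
    have : (d.factorial : ℝ) * (a l : ℝ) / (l : ℝ) ^ d
        ≤ (d.factorial : ℝ) * (b l : ℝ) / (l : ℝ) ^ d := by gcongr
    linarith
  obtain ⟨i, hi⟩ := (eventually_conv_lt n a b hev).exists
  exact absurd hi (not_lt.2 (h i))

end Vale.Agent.P202.Embdim2
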