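import Mathlib

/-! The filtration of a tensor product and the effect of cutting by elements of the ideal. -/

namespace Vale.Agent.P202.Embdim2

open Finset Submodule TensorProduct

variable {k : Type*} [Field k]

/-- Iterated partial sums as a convolution. -/
def conv (n : ℕ) (g : ℕ → ℕ) (i : ℕ) : ℕ :=
  ∑ l ∈ range (i + 1), Nat.multichoose n (i - l) * g l

theorem sum_multichoose (n s : ℕ) :
    ∑ e ∈ range (s + 1), Nat.multichoose n e = Nat.multichoose (n + 1) s := by
  induction s with
  | zero => simp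
  | succ s ih => rw [sum_range_succ, ih, Nat.multichoose_succ_succ]; ring

theorem conv_zero (g : ℕ → ℕ) (i : ℕ) : conv 0 g i = g i := by
  rw [conv, sum_range_succ, sum_eq_zero fun l hl => ?_]
  · simp
  · have := mem_range.1 hl
    rw [show i - l = (i - l - 1) + 1 by omega, Nat.multichoose_zero_succ, zero_mul]

theorem conv_succ (n : ℕ) (g : ℕ → ℕ) (i : ℕ) :
    conv n (fun s => ∑ l ∈ range (s + 1), g l) i = conv (n + 1) g i := by
  simp only [conv, mul_sum]
  rw [sum_comm' (t' := range (i + 1)) (s' := fun l => Ico l (i + 1))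
    (fun s l => by simp only [mem_range, mem_Ico]; omega)]
  refine sum_congr rfl fun l hl => ?_
  rw [← sum_mul]
  congr 1
  have hl' := mem_range.1 hl
  rw [sum_Ico_eq_sum_range, show i + 1 - l = i - l + 1 by omega, ← sum_multichoose,
    ← sum_range_reflect (fun e => Nat.multichoose n e) (i - l + 1)]
  refine sum_congr rfl fun e he => ?_
  have := mem_range.1 he
  congr 1
  omega

theorem conv_mono {g h : ℕ → ℕ} (n i : ℕ) (hle : ∀ l ≤ i, g l ≤ h l) : conv n g i ≤ conv n h i :=
  sum_le_sum fun l hl => Nat.mul_le_mul_left _ (hle l (Nat.lt_succ_iff.1 (mem_range.1 hl)))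

/-- Partial sums of products as a convolution. -/
theorem conv_partial (n i : ℕ) (g : ℕ → ℕ) :
    conv n (fun s => ∑ a ∈ range s, g a) i
      = ∑ a ∈ range i, g a * ∑ e ∈ range (i - a), Nat.multichoose n e := by
  simp only [conv, mul_sum]
  rw [sum_comm' (t' := range i) (s' := fun a => Ico (a + 1) (i + 1))
    (fun s a => by simp only [mem_range, mem_Ico]; omega)]
  refine sum_congr rfl fun a ha => ?_
  have ha' := mem_range.1 ha
  rw [sum_Ico_eq_sum_range, show i + 1 - (a + 1) = i - a by omega,
    ← sum_range_reflect (fun e => g a * Nat.multichoose n e) (i - a)]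
  refine sum_congr rfl fun e he => ?_
  have := mem_range.1 he
  rw [mul_comm]
  congr 2
  omega

section Cut

variable {T : Type*} [CommRing T] [Algebra k T] [Module.Finite k T]

/-- The codimension of `N ^ i + I`. -/
noncomputable def codim (k : Type*) {T : Type*} [Field k] [CommRing T] [Algebra k T]
    (N I : Ideal T) (i : ℕ) : ℕ :=
  Module.finrank k (T ⧸ (N ^ i ⊔ I).restrictScalars k)

theorem codim_zero (N I : Ideal T) : codim k N I 0 = 0 := by
  rw [codim, pow_zero, Ideal.one_eq_top, top_sup_eq, restrictScalars_top]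
  have : Subsingleton (T ⧸ (⊤ : Submodule k T)) := Submodule.Quotient.subsingleton_iff.2 rfl
  exact Module.finrank_zero_of_subsingleton

theorem codim_cut (N I : Ideal T) {D : T} (hD : D ∈ N) (i : ℕ) :
    codim k N I (i + 1) ≤ codim k N (I ⊔ Ideal.span {D}) (i + 1) + codim k N I i := by
  set U := (N ^ (i + 1) ⊔ I).restrictScalars k with hU
  set U' := (N ^ (i + 1) ⊔ (I ⊔ Ideal.span {D})).restrictScalars k with hU'
  set V := (N ^ i ⊔ I).restrictScalars k with hV
  let f : T →ₗ[k] T ⧸ U := U.mkQ ∘ₗ LinearMap.mulLeft k D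
  have hker : V ≤ LinearMap.ker f := by
    intro v hv
    simp only [hV, restrictScalars_mem] at hv
    obtain ⟨a, ha, b, hb, rfl⟩ := mem_sup.1 hv
    simp only [LinearMap.mem_ker, f, LinearMap.comp_apply, LinearMap.mulLeft_apply, mkQ_apply,
      Submodule.Quotient.mk_eq_zero, hU, restrictScalars_mem, mul_add]
    exact add_mem (mem_sup_left (pow_succ' N i ▸ Ideal.mul_mem_mul hD ha))
      (mem_sup_right (I.mul_mem_left D hb))
  have hrange : Module.finrank k (LinearMap.range f) ≤ Module.finrank k (T ⧸ V) := by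
    rw [← range_liftQ V f hker]
    exact LinearMap.finrank_range_le _
  have hle : U ≤ U' := by
    intro x hx
    simp only [hU, hU', restrictScalars_mem] at hx ⊢
    rw [← sup_assoc]
    exact mem_sup_left hx
  let q : T ⧸ U →ₗ[k] T ⧸ U' := U.mapQ U' LinearMap.id (by simpa using hle)
  have hq : LinearMap.ker q ≤ LinearMap.range f := by
    intro x hx
    obtain ⟨x, rfl⟩ := mkQ_surjective U x
    simp only [LinearMap.mem_ker, q, mkQ_apply, mapQ_apply, LinearMap.id_coe, id_eq,
      Submodule.Quotient.mk_eq_zero, hU', restrictScalars_mem] at hx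
    rw [← sup_assoc] at hx
    obtain ⟨u, hu, v, hv, rfl⟩ := mem_sup.1 hx
    obtain ⟨t, rfl⟩ := Ideal.mem_span_singleton'.1 hv
    refine ⟨t, ?_⟩
    simp only [f, LinearMap.comp_apply, LinearMap.mulLeft_apply, mkQ_apply]
    rw [Submodule.Quotient.eq, hU, restrictScalars_mem, mul_comm D t]
    simpa using neg_mem hu
  have h1 := q.finrank_range_add_finrank_ker
  have h2 := Submodule.finrank_mono hq
  have h3 := Submodule.finrank_le (LinearMap.range q)
  show Module.finrank k (T ⧸ U) ≤ Module.finrank k (T ⧸ U') + Module.finrank k (T ⧸ V)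
  omega

/-- Cutting by `n` elements of `N` loses at most `n` differences. -/
theorem codim_le_conv (N : Ideal T) {n : ℕ} (D : Fin n → T) (hD : ∀ l, D l ∈ N) (i : ℕ) :
    codim k N ⊥ i ≤ conv n (codim k N (Ideal.span (Set.range D))) i := by
  induction n generalizing i with
  | zero => rw [conv_zero, Set.range_eq_empty, Ideal.span_empty]
  | succ n ih =>
    refine (ih (fun l => D l.castSucc) (fun l => hD _) i).trans ?_
    rw [← conv_succ]
    refine conv_mono n i fun s hs => ?_
    set I := Ideal.span (Set.range fun l : Fin n => D l.castSucc) with hI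
    have hsup : Ideal.span (Set.range D) = I ⊔ Ideal.span {D (Fin.last n)} := by
      rw [hI, ← Ideal.span_union]
      congr 1
      ext x
      simp only [Set.mem_range, Set.mem_union, Set.mem_singleton_iff]
      constructor
      · rintro ⟨l, rfl⟩
        induction l using Fin.lastCases with
        | last => exact Or.inr rfl
        | cast l => exact Or.inl ⟨l, rfl⟩
      · rintro (⟨l, rfl⟩ | rfl) <;> exact ⟨_, rfl⟩
    induction s with
    | zero => simp [codim_zero]
    | succ s ihs =>
      rw [sum_range_succ]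
      have h := codim_cut (k := k) N I (hD (Fin.last n)) s
      rw [← hsup] at h
      exact (h.trans (Nat.add_le_add_left (ihs (by omega)) _)).trans (Nat.add_comm _ _).le

end Cut

section Triangular

variable {ι : Type*} [Fintype ι] {V : Type*} [AddCommGroup V] [Module k V] {M : ι → Type*}
  [∀ x, AddCommGroup (M x)] [∀ x, Module k (M x)]

/-- A triangular map to a finite product is surjective. -/
theorem range_eq_top_of_triangular (F : V →ₗ[k] ∀ x, M x) (deg : ι → ℕ) {i : ℕ}
    (hdeg : ∀ x, deg x < i) (S : ∀ x, Set (M x)) (hS : ∀ x, span k (S x) = ⊤)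
    (h : ∀ x, ∀ y ∈ S x, ∃ v, F v x = y ∧ ∀ z, z ≠ x → deg z ≤ deg x → F v z = 0) :
    LinearMap.range F = ⊤ := by
  classical
  have key : ∀ e x, i ≤ deg x + e → ∀ y, Pi.single x y ∈ LinearMap.range F := by
    intro e
    induction e with
    | zero => intro x hx; have := hdeg x; omega
    | succ e ih =>
      intro x hx y
      have hy : y ∈ span k (S x) := hS x ▸ Submodule.mem_top
      induction hy using Submodule.span_induction with
      | zero => simp
      | add u v _ _ hu hv => rw [Pi.single_add]; exact add_mem hu hv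
      | smul c u _ hu => rw [Pi.single_smul]; exact smul_mem _ c hu
      | mem u hu =>
        obtain ⟨v, hv, hz⟩ := h x u hu
        have hsum : Pi.single x (F v x) = F v - ∑ z ∈ univ.erase x, Pi.single z (F v z) :=
          eq_sub_of_add_eq ((add_sum_erase univ (fun z => Pi.single z (F v z)) (mem_univ x)).trans
            (Finset.univ_sum_single (F v)))
        rw [← hv, hsum]
        refine sub_mem (LinearMap.mem_range_self _ _) (sum_mem fun z hz' => ?_)
        rcases le_or_gt (deg z) (deg x) with hd | hd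
        · rw [hz z (mem_erase.1 hz').1 hd, Pi.single_zero]
          exact zero_mem _
        · exact ih z (by omega) _
  rw [eq_top_iff]
  intro w _
  rw [← Finset.univ_sum_single w]
  exact sum_mem fun x _ => key i x (Nat.le_add_left _ _) _

end Triangular

section Tensor

variable {A B : Type*} [CommRing A] [CommRing B] [Algebra k A] [Algebra k B] [Module.Finite k A]
  [Module.Finite k B]

/-- The dimension of a graded piece. -/
noncomputable def grDim (k : Type*) {A : Type*} [Field k] [CommRing A] [Algebra k A] (m : Ideal A)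
    (a : ℕ) : ℕ :=
  Module.finrank k ((m ^ a).restrictScalars k ⧸
    ((m ^ (a + 1)).restrictScalars k).comap ((m ^ a).restrictScalars k).subtype)

theorem sum_grDim (m : Ideal A) (t : ℕ) :
    ∑ a ∈ range t, grDim k m a = Module.finrank k (A ⧸ (m ^ t).restrictScalars k) := by
  have h : ∀ t, Module.finrank k A = (∑ a ∈ range t, grDim k m a)
      + Module.finrank k ((m ^ t).restrictScalars k) := by
    intro t
    induction t with
    | zero => rw [pow_zero, Ideal.one_eq_top, restrictScalars_top, finrank_top]; simp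
    | succ t ih =>
      have hle : (m ^ (t + 1)).restrictScalars k ≤ (m ^ t).restrictScalars k :=
        fun x hx => Ideal.pow_le_pow_right (Nat.le_succ t) hx
      have h1 := Submodule.finrank_quotient_add_finrank
        (((m ^ (t + 1)).restrictScalars k).comap ((m ^ t).restrictScalars k).subtype)
      rw [(Submodule.comapSubtypeEquivOfLe hle).finrank_eq] at h1
      rw [sum_range_succ, ih, grDim]
      omega
  have := h t
  have := Submodule.finrank_quotient_add_finrank ((m ^ t).restrictScalars k)
  omega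

theorem exists_proj (m : Ideal A) (a : ℕ) :
    ∃ ρ : A →ₗ[k] (Fin (grDim k m a) → k),
      (∀ a' > a, ∀ x ∈ m ^ a', ρ x = 0) ∧ ∀ y, ∃ x ∈ m ^ a, ρ x = y := by
  suffices h : ∃ ρ : A →ₗ[k] ((m ^ a).restrictScalars k ⧸
      ((m ^ (a + 1)).restrictScalars k).comap ((m ^ a).restrictScalars k).subtype),
      (∀ a' > a, ∀ x ∈ m ^ a', ρ x = 0) ∧ ∀ y, ∃ x ∈ m ^ a, ρ x = y by
    obtain ⟨ρ, h1, h2⟩ := h
    let e : _ ≃ₗ[k] (Fin (grDim k m a) → k) := (Module.finBasis k ((m ^ a).restrictScalars k ⧸
      ((m ^ (a + 1)).restrictScalars k).comap ((m ^ a).restrictScalars k).subtype)).equivFun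
    refine ⟨e.toLinearMap ∘ₗ ρ, fun a' ha x hx => by show e (ρ x) = 0; rw [h1 a' ha x hx, map_zero],
      fun y => ?_⟩
    obtain ⟨x, hx, hxy⟩ := h2 (e.symm y)
    refine ⟨x, hx, ?_⟩
    show e (ρ x) = y
    rw [hxy, LinearEquiv.apply_symm_apply]
  obtain ⟨ρ, hρ⟩ := LinearMap.exists_extend
    (((m ^ (a + 1)).restrictScalars k).comap ((m ^ a).restrictScalars k).subtype).mkQ
  refine ⟨ρ, fun a' ha x hx => ?_, fun y => ?_⟩
  · have hx' : x ∈ m ^ (a + 1) := Ideal.pow_le_pow_right ha hx
    refine (LinearMap.congr_fun hρ ⟨x, Ideal.pow_le_pow_right (Nat.le_succ a) hx'⟩).trans ?_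
    rw [mkQ_apply, Submodule.Quotient.mk_eq_zero]
    exact hx'
  · obtain ⟨x, rfl⟩ := mkQ_surjective _ y
    exact ⟨x, x.2, LinearMap.congr_fun hρ x⟩

/-- The filtration of a tensor product is at least the product filtration. -/
theorem tensor_lower (m : Ideal A) (n : Ideal B) (i : ℕ) :
    ∑ a ∈ range i, grDim k m a * ∑ b ∈ range (i - a), grDim k n b
      ≤ codim k (m.map (Algebra.TensorProduct.includeLeft : A →ₐ[k] A ⊗[k] B)
          ⊔ n.map (Algebra.TensorProduct.includeRight : B →ₐ[k] A ⊗[k] B)) ⊥ i := by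
  classical
  choose ρ hρ hρs using fun a => exists_proj (k := k) m a
  choose σ hσ hσs using fun b => exists_proj (k := k) n b
  let p := Σ a : Fin i, Σ b : Fin (i - a), Fin (grDim k m a) × Fin (grDim k n b)
  let Pf : A ⊗[k] B →ₗ[k] (p → k) := LinearMap.pi fun x : p =>
    LinearMap.mul' k k ∘ₗ TensorProduct.map (LinearMap.proj x.2.2.1 ∘ₗ ρ x.1)
      (LinearMap.proj x.2.2.2 ∘ₗ σ x.2.1)
  have hzero : ∀ a b, i ≤ a + b → ∀ c ∈ m ^ a, ∀ q ∈ n ^ b, Pf (c ⊗ₜ q) = 0 := by
    intro a b hab c hc q hq
    funext x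
    show ρ x.1 c x.2.2.1 * σ x.2.1 q x.2.2.2 = 0
    have := x.2.1.2
    rcases lt_or_ge (x.1 : ℕ) a with h | h
    · rw [hρ _ a h c hc]; simp
    · rw [hσ _ b (by omega) q hq]; simp
  set I := m.map (Algebra.TensorProduct.includeLeft : A →ₐ[k] A ⊗[k] B) with hI
  set J := n.map (Algebra.TensorProduct.includeRight : B →ₐ[k] A ⊗[k] B) with hJ
  have hpow : (I ⊔ J) ^ i ≤ ⨆ a ∈ range (i + 1), I ^ a * J ^ (i - a) := by
    clear hzero Pf p
    induction i with
    | zero => simp
    | succ i ih =>
      rw [pow_succ]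
      refine (mul_le_mul' ih le_rfl).trans ?_
      simp only [Ideal.iSup_mul]
      refine iSup₂_le fun a ha => ?_
      have ha' := mem_range.1 ha
      rw [Ideal.mul_sup]
      refine sup_le ?_ ?_
      · refine le_trans ?_ (le_iSup₂ (f := fun a _ => I ^ a * J ^ (i + 1 - a)) (a + 1)
          (mem_range.2 (by omega)))
        rw [mul_right_comm, ← pow_succ, show i + 1 - (a + 1) = i - a by omega]
      · refine le_trans ?_ (le_iSup₂ (f := fun a _ => I ^ a * J ^ (i + 1 - a)) a
          (mem_range.2 (by omega)))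
        rw [mul_assoc, ← pow_succ, show i + 1 - a = i - a + 1 by omega]
  have hker : ∀ x ∈ (I ⊔ J) ^ i, Pf x = 0 := by
    intro x hx
    have hx' : x ∈ Ideal.span {t : A ⊗[k] B | ∃ a b, i ≤ a + b ∧ ∃ c ∈ m ^ a, ∃ q ∈ n ^ b,
        t = c ⊗ₜ q} := by
      refine (hpow.trans (iSup₂_le fun a ha => ?_)) hx
      rw [hI, hJ, ← Ideal.map_pow, ← Ideal.map_pow, Ideal.map, Ideal.map, Ideal.span_mul_span',
        Ideal.span_le]
      rintro _ ⟨_, ⟨c, hc, rfl⟩, _, ⟨q, hq, rfl⟩, rfl⟩
      exact Ideal.subset_span ⟨a, i - a, by have := mem_range.1 ha; omega, c, hc, q, hq, by simp⟩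
    suffices ∀ t, Pf (t * x) = 0 by simpa using this 1
    clear hx
    induction hx' using Submodule.span_induction with
    | mem y hy =>
      obtain ⟨a, b, hab, c, hc, q, hq, rfl⟩ := hy
      intro t
      induction t using TensorProduct.induction_on with
      | zero => simp
      | tmul u v =>
        rw [Algebra.TensorProduct.tmul_mul_tmul]
        exact hzero a b hab _ ((m ^ a).mul_mem_left u hc) _ ((n ^ b).mul_mem_left v hq)
      | add u v hu hv => rw [add_mul, map_add, hu, hv, add_zero]
    | zero => simp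
    | add u v _ _ hu hv => intro t; rw [mul_add, map_add, hu t, hv t, add_zero]
    | smul s u _ hu => intro t; rw [smul_eq_mul, ← mul_assoc]; exact hu _
  have hsurj : LinearMap.range Pf = ⊤ := by
    refine range_eq_top_of_triangular Pf (fun x : p => (x.1 : ℕ) + x.2.1) (i := i)
      (fun x => by have := x.2.1.2; omega) (fun _ => {(1 : k)})
      (fun _ => Ideal.span_singleton_one) ?_
    rintro ⟨x1, x2, u, v⟩ _ rfl
    obtain ⟨c, hc, hcu⟩ := hρs x1 (Pi.single u 1)
    obtain ⟨q, hq, hqv⟩ := hσs x2 (Pi.single v 1)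
    refine ⟨c ⊗ₜ q, ?_, fun z hne hd => ?_⟩
    · show ρ x1 c u * σ x2 q v = 1
      rw [hcu, hqv]
      simp
    obtain ⟨z1, z2, u', v'⟩ := z
    show ρ z1 c u' * σ z2 q v' = 0
    simp only at hd
    rcases lt_or_ge (z1 : ℕ) x1 with h | h
    · rw [hρ _ _ h c hc]; simp
    · rcases lt_or_ge (z2 : ℕ) x2 with h' | h'
      · rw [hσ _ _ h' q hq]; simp
      · obtain rfl : z1 = x1 := Fin.ext (by omega)
        obtain rfl : z2 = x2 := Fin.ext (by omega)
        rw [hcu, hqv]
        by_cases hu : u' = u
        · subst hu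
          have hv : v' ≠ v := fun hv => hne (by rw [hv])
          simp [hv]
        · simp [hu]
  have hle : ((I ⊔ J) ^ i ⊔ ⊥).restrictScalars k ≤ LinearMap.ker Pf := fun x hx => by
    rw [sup_bot_eq, restrictScalars_mem] at hx
    exact hker x hx
  have h1 := LinearMap.finrank_range_le (((I ⊔ J) ^ i ⊔ ⊥).restrictScalars k |>.liftQ Pf hle)
  rw [range_liftQ, hsurj, finrank_top, Module.finrank_pi] at h1
  refine le_trans (le_of_eq ?_) h1
  rw [Fintype.card_sigma, ← Fin.sum_univ_eq_sum_range]
  refine sum_congr rfl fun a _ => ?_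
  rw [mul_sum, ← Fin.sum_univ_eq_sum_range, Fintype.card_sigma]
  exact sum_congr rfl fun b _ => by rw [Fintype.card_prod, Fintype.card_fin, Fintype.card_fin]

end Tensor

end Vale.Agent.P202.Embdim2
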