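import Vale.Agent.P202.Embdim2.Lifted
import Vale.Agent.P202.Embdim2.Cut

/-! The sums of the Hilbert function of an algebra with a monomial basis in two elements over a
quotient of a truncated polynomial ring. -/

namespace Vale.Agent.P202.Embdim2

open Finset TensorProduct
open scoped IsMulCommutative

/-- A bound on the order of truncation needed in degree `t`. -/
def bd (n N₀ t : ℕ) : ℕ := n.factorial * (2 ^ (n + 2) * t ^ (n + 2) * N₀ ^ (n - 1)) + 1

theorem bd_spec {n N₀ t : ℕ} (hn : 1 ≤ n) :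
    2 ^ (n + 2) * t ^ (n + 2) * (N₀ * bd n N₀ t) ^ (n - 1)
      < ∑ e ∈ range (bd n N₀ t), Nat.multichoose n e := by
  obtain ⟨n, rfl⟩ : ∃ m, n = m + 1 := ⟨n - 1, by omega⟩
  set β := bd (n + 1) N₀ t with hβ
  obtain ⟨γ, hγ⟩ : ∃ γ, β = γ + 1 := ⟨_, rfl⟩
  have h1 : β ^ (n + 1) ≤ (n + 1).factorial * (γ + (n + 1)).choose (n + 1) := by
    rw [← Nat.ascFactorial_eq_factorial_mul_choose, ← hγ]
    exact Nat.pow_succ_le_ascFactorial β (n + 1)
  rw [hγ, sum_multichoose, Nat.multichoose_eq, ← hγ,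
    show n + 1 + 1 + γ - 1 = γ + (n + 1) by omega, Nat.choose_symm_add]
  refine Nat.lt_of_mul_lt_mul_left (a := (n + 1).factorial) (lt_of_lt_of_le ?_ h1)
  rw [Nat.add_sub_cancel, mul_pow, pow_succ β n, mul_comm (β ^ n) β]
  calc (n + 1).factorial * (2 ^ (n + 1 + 2) * t ^ (n + 1 + 2) * (N₀ ^ n * β ^ n))
      = ((n + 1).factorial * (2 ^ (n + 1 + 2) * t ^ (n + 1 + 2) * N₀ ^ n)) * β ^ n := by ring
    _ < β * β ^ n := by
      refine Nat.mul_lt_mul_of_pos_right ?_ (pow_pos (by omega) _)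
      simp [hβ, bd]

theorem finrank_comap {k A B : Type*} [Field k] [CommRing A] [CommRing B] [Algebra k A]
    [Algebra k B] (f : A →ₐ[k] B) (hf : Function.Surjective f) (I : Ideal B) :
    Module.finrank k (A ⧸ (I.comap f).restrictScalars k)
      = Module.finrank k (B ⧸ I.restrictScalars k) := by
  let g := (I.restrictScalars k).mkQ ∘ₗ f.toLinearMap
  have hg : Function.Surjective g := (Submodule.mkQ_surjective _).comp hf
  have hk : (I.comap f).restrictScalars k = LinearMap.ker g := by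
    ext a
    simp [g]
  rw [hk]
  exact (g.quotKerEquivOfSurjective hg).finrank_eq

theorem sup_pow_le {A : Type*} [CommRing A] (M J : Ideal A) : ∀ p, (M ⊔ J) ^ p ≤ M ⊔ J ^ p
  | 0 => by simp
  | p + 1 => by
    rw [pow_succ, pow_succ]
    refine (mul_le_mul' (sup_pow_le M J p) le_rfl).trans ?_
    rw [Ideal.sup_mul, Ideal.mul_sup, Ideal.mul_sup]
    exact sup_le (sup_le (le_sup_of_le_left Ideal.mul_le_left) (le_sup_of_le_left Ideal.mul_le_left))
      (sup_le (le_sup_of_le_left Ideal.mul_le_right) le_sup_right)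

section Lift

variable {k R' S' Q ι : Type*} [Field k] [CommRing R'] [Algebra k R'] [CommRing S'] [Algebra R' S']
  [Algebra k S'] [CommRing Q] [Fintype ι] [DecidableEq ι] {n j : ℕ} [Algebra (Trunc k n j) Q]
  [Algebra k Q]
  (φ : Trunc k n j →ₐ[k] R') (bw : Module.Basis ι R' S') (x y : S') (a b : ι → ℕ) (xQ yQ : Q)
  (bQ : Module.Basis ι (Trunc k n j) Q) (ψ : Q →ₐ[k] S')

/-- The ideal generated by the variables and the two elements. -/
noncomputable def bigIdeal : Ideal Q :=
  (Ideal.span (Set.range (tvar k n j))).map (algebraMap (Trunc k n j) Q) ⊔ Ideal.span {xQ, yQ}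

/-- The generators of that ideal. -/
noncomputable def bigGens : Fin (n + 2) → Q :=
  Fin.append (fun l => algebraMap (Trunc k n j) Q (tvar k n j l)) ![xQ, yQ]

theorem span_bigGens : Ideal.span (Set.range (bigGens (k := k) (n := n) (j := j) xQ yQ))
    = bigIdeal (k := k) (n := n) (j := j) xQ yQ := by
  have h : ∀ {α : Type _} (u : Fin n → α) (v : Fin 2 → α),
      Set.range (Fin.append u v) = Set.range u ∪ Set.range v := fun u v => by
    ext t
    constructor
    · rintro ⟨i, rfl⟩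
      induction i using Fin.addCases with
      | left i => left; exact ⟨i, by simp⟩
      | right i => right; exact ⟨i, by simp⟩
    · rintro (⟨i, rfl⟩ | ⟨i, rfl⟩)
      · exact ⟨Fin.castAdd 2 i, by simp⟩
      · exact ⟨Fin.natAdd n i, by simp⟩
  rw [bigGens, h, Matrix.range_cons, Matrix.range_cons, Matrix.range_empty, Set.union_empty,
    Set.singleton_union, Ideal.span_union, bigIdeal, Ideal.map_span, ← Set.range_comp]
  rfl

variable [IsScalarTower k (Trunc k n j) Q]

theorem repr_psi (hψb : ∀ l, ψ (bQ l) = bw l)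
    (hψalg : ∀ p, ψ (algebraMap (Trunc k n j) Q p) = algebraMap R' S' (φ p)) (q : Q) (l : ι) :
    bw.repr (ψ q) l = φ (bQ.repr q l) := by
  conv_lhs => rw [← bQ.sum_repr q]
  rw [map_sum, map_sum, Finsupp.finsetSum_apply]
  have : ∀ l', bw.repr (ψ (bQ.repr q l' • bQ l')) l
      = if l' = l then φ (bQ.repr q l') else 0 := fun l' => by
    rw [Algebra.smul_def, map_mul, hψalg, hψb, ← Algebra.smul_def, map_smul,
      Module.Basis.repr_self, Finsupp.smul_apply, Finsupp.single_apply, smul_eq_mul, mul_ite,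
      mul_one, mul_zero]
  rw [sum_congr rfl fun l' _ => this l', Finset.sum_ite_eq', if_pos (mem_univ l)]

theorem sub_scalar_mem (hbQ : ∀ l, bQ l = xQ ^ a l * yQ ^ b l) (q : Q) :
    ∃ c : k, q - algebraMap k Q c ∈ bigIdeal (k := k) (n := n) (j := j) xQ yQ := by
  set I := bigIdeal (k := k) (n := n) (j := j) xQ yQ with hI
  have hx' : xQ ∈ I := Submodule.mem_sup_right (Ideal.subset_span (Or.inl rfl))
  have hy' : yQ ∈ I := Submodule.mem_sup_right (Ideal.subset_span (Or.inr rfl))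
  have hterm : ∀ l, ∃ c : k, bQ.repr q l • bQ l - algebraMap k Q c ∈ I := by
    intro l
    obtain ⟨c, hc⟩ := trunc_sub_mem (k := k) n j (bQ.repr q l)
    have hc' : algebraMap (Trunc k n j) Q (bQ.repr q l) - algebraMap k Q c ∈ I := by
      rw [IsScalarTower.algebraMap_apply k (Trunc k n j) Q, ← map_sub]
      exact Submodule.mem_sup_left (Ideal.mem_map_of_mem _ hc)
    rw [Algebra.smul_def, hbQ]
    rcases Nat.eq_zero_or_pos (a l) with ha | ha
    · rcases Nat.eq_zero_or_pos (b l) with hb | hb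
      · exact ⟨c, by rw [ha, hb, pow_zero, pow_zero, mul_one, mul_one]; exact hc'⟩
      · refine ⟨0, ?_⟩
        simpa only [map_zero, sub_zero] using
          I.mul_mem_left _ (I.mul_mem_left _ (Ideal.pow_mem_of_mem _ hy' _ hb))
    · refine ⟨0, ?_⟩
      simpa only [map_zero, sub_zero] using
        I.mul_mem_left _ (I.mul_mem_right _ (Ideal.pow_mem_of_mem _ hx' _ ha))
  choose c hc using hterm
  refine ⟨∑ l, c l, ?_⟩
  have := sum_mem (t := (univ : Finset ι)) fun l _ => hc l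
  rwa [sum_sub_distrib, bQ.sum_repr, ← map_sum] at this

theorem bigIdeal_pow_le (ev : R' →ₐ[k] k) (hev : ∀ l, ev (φ (tvar k n j l)) = 0)
    (hψb : ∀ l, ψ (bQ l) = bw l)
    (hψalg : ∀ p, ψ (algebraMap (Trunc k n j) Q p) = algebraMap R' S' (φ p))
    (hψx : ψ xQ = x) (hψy : ψ yQ = y) {N₀ : ℕ}
    (hnil : ∀ s ∈ Ideal.span {x, y} ^ N₀, ∀ l, ev (bw.repr s l) = 0) :
    bigIdeal (k := k) (n := n) (j := j) xQ yQ ^ N₀
      ≤ (Ideal.span (Set.range (tvar k n j))).map (algebraMap (Trunc k n j) Q) := by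
  set MQ := (Ideal.span (Set.range (tvar k n j))).map (algebraMap (Trunc k n j) Q) with hMQ
  set J : Ideal Q := Ideal.span {xQ, yQ} with hJ
  refine (sup_pow_le MQ J N₀).trans (sup_le le_rfl fun q hq => ?_)
  have h1 := Ideal.mem_map_of_mem ψ hq
  rw [Ideal.map_pow, hJ, Ideal.map_span, Set.image_insert_eq, Set.image_singleton, hψx, hψy] at h1
  rw [← bQ.sum_repr q]
  refine sum_mem fun l _ => ?_
  rw [Algebra.smul_def]
  refine Ideal.mul_mem_right _ _ (Ideal.mem_map_of_mem _ ?_)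
  rw [← mem_span_of_residue φ ev hev, ← repr_psi φ bw bQ ψ hψb hψalg]
  exact hnil _ h1 l

theorem bigIdeal_low [Nonempty ι] (hbQ : ∀ l, bQ l = xQ ^ a l * yQ ^ b l) {N₀ t : ℕ} (hn : 1 ≤ n)
    (ht : bd n N₀ t ≤ j)
    (hpow : bigIdeal (k := k) (n := n) (j := j) xQ yQ ^ N₀
      ≤ (Ideal.span (Set.range (tvar k n j))).map (algebraMap (Trunc k n j) Q)) :
    ∑ e ∈ range t, Nat.multichoose n e ≤ Module.finrank k
      (Q ⧸ (bigIdeal (k := k) (n := n) (j := j) xQ yQ ^ t).restrictScalars k) := by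
  have hfinP := trunc_finite (k := k) n j
  have hfinQ' : Module.Finite (Trunc k n j) Q := Module.Finite.of_basis bQ
  have hfinQ : Module.Finite k Q := Module.Finite.trans (Trunc k n j) Q
  rw [← span_bigGens (k := k) (n := n) (j := j) xQ yQ] at hpow ⊢
  refine sum_multichoose_le _ (fun q => ?_) (b := N₀ * bd n N₀ t) (lt_of_lt_of_le (bd_spec hn) ?_)
  · rw [span_bigGens]
    exact sub_scalar_mem a b xQ yQ bQ hbQ q
  refine (trunc_lower (k := k) n j ht).trans ?_
  set M := Ideal.span (Set.range (tvar k n j)) with hM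
  set β := bd n N₀ t
  set I := Ideal.span (Set.range (bigGens (k := k) (n := n) (j := j) xQ yQ))
  obtain ⟨l₀⟩ := ‹Nonempty ι›
  let F : Q →ₗ[k] Trunc k n j ⧸ (M ^ β).restrictScalars k :=
    ((M ^ β).restrictScalars k).mkQ ∘ₗ (bQ.coord l₀).restrictScalars k
  have hF : Function.Surjective F := by
    intro u
    obtain ⟨u, rfl⟩ := Submodule.mkQ_surjective _ u
    exact ⟨u • bQ l₀, by simp [F]⟩
  have hker : (I ^ (N₀ * β)).restrictScalars k ≤ LinearMap.ker F := by
    intro q hq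
    rw [Submodule.restrictScalars_mem, pow_mul] at hq
    have hq' : q ∈ (M ^ β).map (algebraMap (Trunc k n j) Q) := by
      rw [Ideal.map_pow]
      exact Ideal.pow_right_mono hpow _ hq
    suffices bQ.coord l₀ q ∈ M ^ β by simpa [F] using this
    rw [← Submodule.restrictScalars_mem (Trunc k n j), ← Ideal.smul_top_eq_map] at hq'
    refine Submodule.smul_induction_on hq' (fun p hp s _ => ?_) fun u v hu hv => ?_
    · rw [map_smul, smul_eq_mul]
      exact Ideal.mul_mem_right _ _ hp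
    · rw [map_add]
      exact add_mem hu hv
  have h := ((I ^ (N₀ * β)).restrictScalars k |>.liftQ F hker).finrank_range_le
  rwa [Submodule.range_liftQ, LinearMap.range_eq_top.2 hF, finrank_top] at h

/-- The element `g ⊗ 1 - 1 ⊗ Y`. -/
noncomputable def diag (l : Fin n) : R' ⊗[k] Q :=
  φ (tvar k n j l) ⊗ₜ 1 - 1 ⊗ₜ algebraMap (Trunc k n j) Q (tvar k n j l)

theorem scalar_mem (p : Trunc k n j) :
    (1 : R') ⊗ₜ[k] algebraMap (Trunc k n j) Q p - φ p ⊗ₜ (1 : Q)
      ∈ Ideal.span (Set.range (diag (Q := Q) φ)) := by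
  obtain ⟨f, rfl⟩ := Ideal.Quotient.mk_surjective p
  induction f using MvPolynomial.induction_on with
  | C c =>
    rw [show Ideal.Quotient.mk _ (MvPolynomial.C c) = algebraMap k (Trunc k n j) c from rfl,
      AlgHom.commutes, ← IsScalarTower.algebraMap_apply, Algebra.algebraMap_eq_smul_one,
      Algebra.algebraMap_eq_smul_one, tmul_smul, smul_tmul', sub_self]
    exact zero_mem _
  | add f f' hf hf' =>
    rw [map_add, map_add, tmul_add, map_add, add_tmul, add_sub_add_comm]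
    exact add_mem hf hf'
  | mul_X f l hf =>
    have e1 : Ideal.Quotient.mk _ (MvPolynomial.X l) = tvar k n j l := rfl
    rw [map_mul, e1]
    set u : Trunc k n j := Ideal.Quotient.mk _ f
    rw [map_mul, map_mul]
    have e : (1 : R') ⊗ₜ[k]
          (algebraMap (Trunc k n j) Q u * algebraMap (Trunc k n j) Q (tvar k n j l))
        - (φ u * φ (tvar k n j l)) ⊗ₜ (1 : Q)
        = ((1 : R') ⊗ₜ[k] algebraMap (Trunc k n j) Q u - φ u ⊗ₜ (1 : Q))
            * (1 ⊗ₜ algebraMap (Trunc k n j) Q (tvar k n j l))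
          - (φ u ⊗ₜ (1 : Q)) * diag φ l := by
      simp only [diag, mul_sub, sub_mul, Algebra.TensorProduct.tmul_mul_tmul, one_mul, mul_one]
      abel
    rw [e]
    exact sub_mem (Ideal.mul_mem_right _ _ hf) (Ideal.mul_mem_left _ _ (Ideal.subset_span ⟨l, rfl⟩))

theorem exists_class (τ : R' ⊗[k] Q) :
    ∃ c : ι → R', τ - ∑ l, c l ⊗ₜ bQ l ∈ Ideal.span (Set.range (diag (Q := Q) φ)) := by
  induction τ using TensorProduct.induction_on with
  | zero => exact ⟨0, by simp⟩
  | add u v hu hv =>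
    obtain ⟨c, hc⟩ := hu
    obtain ⟨c', hc'⟩ := hv
    refine ⟨c + c', ?_⟩
    simp only [Pi.add_apply, add_tmul, sum_add_distrib]
    rw [add_sub_add_comm]
    exact add_mem hc hc'
  | tmul u q =>
    refine ⟨fun l => u * φ (bQ.repr q l), ?_⟩
    conv => enter [2, 1]; rw [← bQ.sum_repr q, tmul_sum]
    rw [← sum_sub_distrib]
    refine sum_mem fun l _ => ?_
    have : u ⊗ₜ[k] (bQ.repr q l • bQ l) - (u * φ (bQ.repr q l)) ⊗ₜ bQ l = (u ⊗ₜ bQ l) *
        ((1 : R') ⊗ₜ[k] algebraMap (Trunc k n j) Q (bQ.repr q l) - φ (bQ.repr q l) ⊗ₜ (1 : Q)) := by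
      rw [mul_sub, Algebra.TensorProduct.tmul_mul_tmul, Algebra.TensorProduct.tmul_mul_tmul,
        mul_one, mul_one, Algebra.smul_def, mul_comm (bQ l)]
    rw [this]
    exact Ideal.mul_mem_left _ _ (scalar_mem φ _)

variable [IsScalarTower k R' S']

theorem tensor_facts (hψb : ∀ l, ψ (bQ l) = bw l)
    (hψalg : ∀ p, ψ (algebraMap (Trunc k n j) Q p) = algebraMap R' S' (φ p))
    (hψx : ψ xQ = x) (hψy : ψ yQ = y) (l : ℕ) :
    codim k ((Ideal.span (Set.range (φ ∘ tvar k n j))).map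
        (Algebra.TensorProduct.includeLeft : R' →ₐ[k] R' ⊗[k] Q)
      ⊔ (bigIdeal (k := k) (n := n) (j := j) xQ yQ).map
        (Algebra.TensorProduct.includeRight : Q →ₐ[k] R' ⊗[k] Q))
      (Ideal.span (Set.range (diag (Q := Q) φ))) l
    = Module.finrank k (S' ⧸ (((Ideal.span (Set.range (φ ∘ tvar k n j))).map
        (algebraMap R' S') ⊔ Ideal.span {x, y}) ^ l).restrictScalars k) := by
  let ψT : R' ⊗[k] Q →ₐ[k] S' :=
    Algebra.TensorProduct.lift (IsScalarTower.toAlgHom k R' S') ψ fun _ _ => Commute.all _ _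
  have hψT : ∀ u q, ψT (u ⊗ₜ q) = algebraMap R' S' u * ψ q := fun u q => by simp [ψT]
  have hψTsurj : Function.Surjective ψT := fun s =>
    ⟨∑ l, bw.repr s l ⊗ₜ bQ l, by
      simp only [map_sum, hψT, hψb, ← Algebra.smul_def, bw.sum_repr]⟩
  set DI := Ideal.span (Set.range (diag (Q := Q) φ)) with hDI
  have hDker : DI ≤ RingHom.ker ψT := Ideal.span_le.2 (by
    rintro _ ⟨l, rfl⟩
    show ψT (diag φ l) = 0
    simp only [diag, map_sub, hψT, map_one, one_mul, mul_one, hψalg, sub_self])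
  have hkerT : RingHom.ker ψT = DI := by
    refine le_antisymm (fun τ hτ => ?_) hDker
    obtain ⟨c, hc⟩ := exists_class φ bQ τ
    have h : ψT (τ - ∑ l, c l ⊗ₜ bQ l) = 0 := hDker hc
    rw [map_sub, show ψT τ = 0 from hτ, map_sum, zero_sub, neg_eq_zero] at h
    simp only [hψT, hψb, ← Algebra.smul_def] at h
    have hc0 : ∀ l, c l = 0 := Fintype.linearIndependent_iff.1 bw.linearIndependent c h
    simpa [hc0] using hc
  set mR : Ideal R' := Ideal.span (Set.range (φ ∘ tvar k n j)) with hmR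
  set nQ := bigIdeal (k := k) (n := n) (j := j) xQ yQ with hnQ
  set NT := mR.map (Algebra.TensorProduct.includeLeft : R' →ₐ[k] R' ⊗[k] Q)
      ⊔ nQ.map (Algebra.TensorProduct.includeRight : Q →ₐ[k] R' ⊗[k] Q) with hNT
  have hNTmap : NT.map ψT = mR.map (algebraMap R' S') ⊔ Ideal.span {x, y} := by
    have e1 : (mR.map (Algebra.TensorProduct.includeLeft : R' →ₐ[k] R' ⊗[k] Q)).map ψT
        = mR.map (algebraMap R' S') := by
      rw [hmR, Ideal.map_span, Ideal.map_span, Ideal.map_span, ← Set.image_comp]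
      congr 1
      refine Set.image_congr fun u _ => ?_
      simp [hψT]
    have e2 : (nQ.map (Algebra.TensorProduct.includeRight : Q →ₐ[k] R' ⊗[k] Q)).map ψT
        = nQ.map ψ := by
      rw [← span_bigGens] at hnQ
      rw [hnQ, Ideal.map_span, Ideal.map_span, Ideal.map_span ψ, ← Set.image_comp]
      congr 1
      refine Set.image_congr fun u _ => ?_
      simp [hψT]
    have e3 : ((Ideal.span (Set.range (tvar k n j))).map (algebraMap (Trunc k n j) Q)).map ψ
        = mR.map (algebraMap R' S') := by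
      rw [hmR, Ideal.map_span, Ideal.map_span, Ideal.map_span, ← Set.image_comp,
        ← Set.range_comp, ← Set.range_comp]
      congr 1
      refine congrArg Set.range (funext fun l => ?_)
      exact hψalg _
    rw [hNT, Ideal.map_sup, e1, e2, hnQ, bigIdeal, Ideal.map_sup, e3, Ideal.map_span ψ,
      Set.image_insert_eq, Set.image_singleton, hψx, hψy, ← sup_assoc, sup_idem]
  have hcm : ((mR.map (algebraMap R' S') ⊔ Ideal.span {x, y}) ^ l).comap ψT = NT ^ l ⊔ DI := by
    rw [← hNTmap, ← Ideal.map_pow, Ideal.comap_map_of_surjective _ hψTsurj, ← hkerT]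
    rfl
  rw [← finrank_comap ψT hψTsurj, hcm]
  rfl

end Lift

theorem core {k R' S' : Type*} [Field k] [CharZero k] [CommRing R'] [Algebra k R']
    [Module.Finite k R'] [CommRing S'] [Algebra R' S'] [Algebra k S'] [IsScalarTower k R' S']
    {ι : Type*} [Fintype ι] [DecidableEq ι] [Nonempty ι] {n j : ℕ} (φ : Trunc k n j →ₐ[k] R')
    (hφ : Function.Surjective φ) (ev : R' →ₐ[k] k) (hev : ∀ l, ev (φ (tvar k n j l)) = 0)
    (bw : Module.Basis ι R' S') (x y : S') (a b : ι → ℕ) (hbw : ∀ l, bw l = x ^ a l * y ^ b l)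
    {N₀ : ℕ} (hnil : ∀ s ∈ Ideal.span {x, y} ^ N₀, ∀ l, ev (bw.repr s l) = 0)
    (hn : 1 ≤ n) {i : ℕ} (hbd : ∀ t ≤ i, bd n N₀ t ≤ j) :
    ∑ a ∈ range i, grDim k (Ideal.span (Set.range (φ ∘ tvar k n j))) a
        * ∑ e ∈ range (i - a), Nat.multichoose n e
      ≤ conv n (fun l => Module.finrank k (S' ⧸ (((Ideal.span (Set.range (φ ∘ tvar k n j))).map
          (algebraMap R' S') ⊔ Ideal.span {x, y}) ^ l).restrictScalars k)) i := by
  classical
  obtain ⟨Q, hQc, xQ, yQ, bQ, ψ, hbQ, hψx, hψy, hψalg⟩ := exists_lifted φ hφ ev hev bw x y a b hbw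
  have hfinP := trunc_finite (k := k) n j
  have hfinQ' : Module.Finite (Trunc k n j) Q := Module.Finite.of_basis bQ
  have hfinQ : Module.Finite k Q := Module.Finite.trans (Trunc k n j) Q
  have hψb : ∀ l, ψ (bQ l) = bw l := fun l => by rw [hbQ, map_mul, map_pow, map_pow, hψx, hψy, hbw]
  have hpow := bigIdeal_pow_le φ bw x y xQ yQ bQ ψ ev hev hψb hψalg hψx hψy hnil
  have hlow : ∀ t ≤ i, _ := fun t ht => bigIdeal_low a b xQ yQ bQ hbQ hn (hbd t ht) hpow
  set mR : Ideal R' := Ideal.span (Set.range (φ ∘ tvar k n j)) with hmR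
  set nQ := bigIdeal (k := k) (n := n) (j := j) xQ yQ with hnQ
  have hD : ∀ l, diag (Q := Q) φ l ∈ mR.map (Algebra.TensorProduct.includeLeft : R' →ₐ[k] R' ⊗[k] Q)
      ⊔ nQ.map (Algebra.TensorProduct.includeRight : Q →ₐ[k] R' ⊗[k] Q) := by
    intro l
    refine sub_mem (Submodule.mem_sup_left ?_) (Submodule.mem_sup_right ?_)
    · exact Ideal.mem_map_of_mem _ (Ideal.subset_span ⟨l, rfl⟩)
    · refine Ideal.mem_map_of_mem Algebra.TensorProduct.includeRight ?_
      exact Submodule.mem_sup_left (Ideal.mem_map_of_mem _ (Ideal.subset_span ⟨l, rfl⟩))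
  have h1 := tensor_lower (k := k) mR nQ i
  have h2 := codim_le_conv (k := k) _ (diag (Q := Q) φ) hD i
  refine le_trans (le_trans ?_ h1) (h2.trans (le_of_eq ?_))
  · refine sum_le_sum fun a ha => Nat.mul_le_mul_left _ ?_
    rw [sum_grDim nQ (i - a)]
    exact hlow _ (Nat.sub_le _ _)
  · simp only [conv, hnQ, hmR, tensor_facts φ bw x y xQ yQ bQ ψ hψb hψalg hψx hψy]
    rfl

end Vale.Agent.P202.Embdim2
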