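import Mathlib

/-! Standard monomials: if the powers of an ideal have codimensions growing like a polynomial of
degree `n` then they are at least those of a polynomial ring in `n` variables. -/

namespace Vale.Agent.P202.Embdim2

open Finset Submodule

variable {k Q : Type*} [Field k] [CommRing Q] [Algebra k Q] {N : ℕ} (z : Fin N → Q)

/-- The monomial with the given exponents. -/
def mon (α : Fin N → ℕ) : Q := ∏ i, z i ^ α i

/-- The degree of an exponent. -/
def wt (α : Fin N → ℕ) : ℕ := ∑ i, α i

theorem mon_add (α β : Fin N → ℕ) : mon z (α + β) = mon z α * mon z β := by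
  simp [mon, pow_add, Finset.prod_mul_distrib]

theorem wt_add (α β : Fin N → ℕ) : wt (α + β) = wt α + wt β := by
  simp [wt, Finset.sum_add_distrib]

theorem mon_mem_pow (α : Fin N → ℕ) : mon z α ∈ Ideal.span (Set.range z) ^ wt α := by
  classical
  have : ∀ s : Finset (Fin N), ∏ i ∈ s, z i ^ α i ∈ Ideal.span (Set.range z) ^ ∑ i ∈ s, α i := by
    intro s
    induction s using Finset.induction_on with
    | empty => simp
    | insert i s hi ih =>
      rw [prod_insert hi, sum_insert hi, pow_add]
      exact Ideal.mul_mem_mul (Ideal.pow_mem_pow (Ideal.subset_span (Set.mem_range_self i)) _) ih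
  exact this univ

/-- The exponents of degree `d`. -/
def degSet (N d : ℕ) : Finset (Fin N → ℕ) :=
  (Fintype.piFinset fun _ : Fin N => range (d + 1)).filter fun α => wt α = d

theorem mem_degSet {d : ℕ} {α : Fin N → ℕ} : α ∈ degSet N d ↔ wt α = d := by
  simp only [degSet, mem_filter, Fintype.mem_piFinset, mem_range, and_iff_right_iff_imp]
  rintro rfl i
  exact Nat.lt_succ_of_le (Finset.single_le_sum (fun _ _ => Nat.zero_le _) (mem_univ i))

/-- A monomial is standard if it is independent of the smaller ones of its degree modulo higher
degree. -/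
def Standard (k : Type*) {Q : Type*} [Field k] [CommRing Q] [Algebra k Q] (z : Fin N → Q)
    (α : Fin N → ℕ) : Prop :=
  mon z α ∉ span k (mon z '' {β | wt β = wt α ∧ toLex β < toLex α})
    ⊔ (Ideal.span (Set.range z) ^ (wt α + 1)).restrictScalars k

theorem toLex_add_lt {α β γ : Fin N → ℕ} (h : toLex β < toLex α) :
    toLex (β + γ) < toLex (α + γ) := by
  obtain ⟨i, hi, hlt⟩ := h
  exact ⟨i, fun j hj => by simpa using congrArg (· + γ j) (hi j hj), Nat.add_lt_add_right hlt _⟩

/-- Standard monomials form a lower set. -/
theorem Standard.of_le {α β : Fin N → ℕ} (h : Standard k z α) (hle : β ≤ α) : Standard k z β := by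
  intro hβ
  refine h ?_
  obtain ⟨γ, rfl⟩ : ∃ γ, α = β + γ := ⟨α - β, funext fun i => (Nat.add_sub_cancel' (hle i)).symm⟩
  have hm : mon z β * mon z γ ∈ (span k (mon z '' {δ | wt δ = wt β ∧ toLex δ < toLex β})
      ⊔ (Ideal.span (Set.range z) ^ (wt β + 1)).restrictScalars k).map
        (LinearMap.mulRight k (mon z γ)) := ⟨_, hβ, rfl⟩
  rw [← mon_add] at hm
  refine SetLike.le_def.1 ?_ hm
  rw [Submodule.map_sup, map_span]
  refine sup_le ((span_le.2 ?_).trans le_sup_left) (le_trans ?_ le_sup_right)
  · rintro _ ⟨_, ⟨δ, ⟨hδ, hlt⟩, rfl⟩, rfl⟩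
    refine subset_span ⟨δ + γ, ⟨?_, toLex_add_lt hlt⟩, ?_⟩
    · rw [wt_add, wt_add, hδ]
    · simp [mon_add]
  · rintro _ ⟨q, hq, rfl⟩
    show q * mon z γ ∈ Ideal.span (Set.range z) ^ (wt (β + γ) + 1)
    rw [wt_add, Nat.add_right_comm, pow_add]
    exact Ideal.mul_mem_mul hq (mon_mem_pow z γ)

variable (hsur : ∀ q : Q, ∃ c : k, q - algebraMap k Q c ∈ Ideal.span (Set.range z))

include hsur

theorem pow_eq_span_sup (d : ℕ) :
    (Ideal.span (Set.range z) ^ d).restrictScalars k
      = span k (mon z '' (degSet N d : Set (Fin N → ℕ)))
        ⊔ (Ideal.span (Set.range z) ^ (d + 1)).restrictScalars k := by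
  classical
  refine le_antisymm ?_ (sup_le (span_le.2 ?_) ?_)
  · induction d with
    | zero =>
      intro q _
      obtain ⟨c, hc⟩ := hsur q
      rw [← add_sub_cancel (algebraMap k Q c) q]
      refine add_mem_sup ?_ (by simpa using hc)
      rw [Algebra.algebraMap_eq_smul_one]
      exact smul_mem _ c (subset_span ⟨0, by simp [mem_degSet, wt], by simp [mon]⟩)
    | succ d ih =>
      intro q hq
      rw [restrictScalars_mem, pow_succ] at hq
      refine Submodule.mul_induction_on hq (fun u hu v hv => ?_) (fun _ _ => add_mem)
      obtain ⟨w, hw, h', hh', rfl⟩ := mem_sup.1 (ih hu)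
      rw [add_mul]
      refine add_mem ?_ (mem_sup_right ?_)
      swap
      · rw [restrictScalars_mem, pow_succ]
        exact Ideal.mul_mem_mul hh' hv
      obtain ⟨cv, rfl⟩ := (Ideal.mem_span_range_iff_exists_fun).1 hv
      rw [mul_sum]
      refine sum_mem fun i _ => ?_
      obtain ⟨c, hc⟩ := hsur (cv i)
      rw [← add_sub_cancel (algebraMap k Q c) (cv i), add_mul, mul_add]
      refine add_mem (mem_sup_left ?_) (mem_sup_right ?_)
      · have hmap : (span k (mon z '' (degSet N d : Set (Fin N → ℕ)))).map
            (LinearMap.mulRight k (algebraMap k Q c * z i)) ≤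
            span k (mon z '' (degSet N (d + 1) : Set (Fin N → ℕ))) := by
          rw [map_span, span_le]
          rintro _ ⟨_, ⟨δ, hδ, rfl⟩, rfl⟩
          simp only [LinearMap.mulRight_apply]
          rw [mul_left_comm, ← Algebra.smul_def]
          refine smul_mem _ c (subset_span ⟨δ + Pi.single i 1, ?_, ?_⟩)
          · rw [mem_coe, mem_degSet] at hδ ⊢
            rw [wt_add, hδ]
            simp [wt]
          · rw [mon_add]
            congr 1
            rw [mon, Finset.prod_eq_single i (fun j _ hj => by simp [hj]) (by simp)]
            simp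
        exact hmap ⟨w, hw, rfl⟩
      · have : w ∈ Ideal.span (Set.range z) ^ d := by
          have hle : span k (mon z '' (degSet N d : Set (Fin N → ℕ)))
              ≤ (Ideal.span (Set.range z) ^ d).restrictScalars k := span_le.2 (by
            rintro _ ⟨δ, hδ, rfl⟩
            exact (mem_degSet.1 hδ) ▸ mon_mem_pow z δ)
          exact hle hw
        rw [restrictScalars_mem, pow_succ, pow_succ, mul_assoc]
        exact Ideal.mul_mem_mul this
          (Ideal.mul_mem_mul hc (Ideal.subset_span (Set.mem_range_self i)))
  · rintro _ ⟨δ, hδ, rfl⟩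
    exact (mem_degSet.1 hδ) ▸ mon_mem_pow z δ
  · exact Ideal.pow_le_pow_right (Nat.le_succ d)

variable [Module.Finite k Q]

open scoped Classical in
/-- The codimension of a power is the number of standard monomials of lower degree. -/
theorem finrank_quot_pow (t : ℕ) :
    Module.finrank k (Q ⧸ (Ideal.span (Set.range z) ^ t).restrictScalars k)
      = ∑ d ∈ range t, ((degSet N d).filter (Standard k z)).card := by
  set n := Ideal.span (Set.range z) with hn
  have hstep : ∀ d, Module.finrank k ((n ^ d).restrictScalars k) =
      Module.finrank k ((n ^ (d + 1)).restrictScalars k)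
        + ((degSet N d).filter (Standard k z)).card := by
    intro d
    set W := (n ^ (d + 1)).restrictScalars k with hW
    have key : ∀ s : Finset (Lex (Fin N → ℕ)), (∀ α ∈ s, wt (ofLex α) = d) →
        (∀ α ∈ s, ∀ β : Lex (Fin N → ℕ), wt (ofLex β) = d → β < α → β ∈ s) →
        Module.finrank k
            (span k ((fun α => mon z (ofLex α)) '' (s : Set (Lex (Fin N → ℕ)))) ⊔ W : Submodule k Q)
          = Module.finrank k W + (s.filter fun α => Standard k z (ofLex α)).card := by
      intro s
      induction s using Finset.induction_on_max with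
      | empty =>
        intros
        have : span k ((fun α => mon z (ofLex α)) '' ((∅ : Finset (Lex (Fin N → ℕ))) :
            Set (Lex (Fin N → ℕ)))) ⊔ W = W := by simp
        rw [this]
        simp
      | insert a s hlt ih =>
        intro hd hdown
        have hnot : a ∉ s := fun ha => lt_irrefl _ (hlt a ha)
        have hs : {β | wt β = wt (ofLex a) ∧ toLex β < toLex (ofLex a)}
            = ofLex '' (s : Set (Lex (Fin N → ℕ))) := by
          ext β
          constructor
          · rintro ⟨hw, hl⟩
            have hb := hdown a (mem_insert_self a s) (toLex β)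
              (hw.trans (hd a (mem_insert_self a s))) hl
            rcases mem_insert.1 hb with h | h
            · exact absurd h hl.ne
            · exact ⟨_, h, rfl⟩
          · rintro ⟨γ, hγ, rfl⟩
            exact ⟨(hd γ (mem_insert_of_mem hγ)).trans (hd a (mem_insert_self a s)).symm, hlt γ hγ⟩
        have ih' := ih (fun α hα => hd α (mem_insert_of_mem hα)) fun α hα β hw hl => by
          rcases mem_insert.1 (hdown α (mem_insert_of_mem hα) β hw hl) with rfl | h
          · exact absurd (hlt α hα) (lt_asymm hl)
          · exact h
        set V := span k ((fun α => mon z (ofLex α)) '' (s : Set (Lex (Fin N → ℕ)))) ⊔ W with hV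
        have hst : Standard k z (ofLex a) ↔ mon z (ofLex a) ∉ V := by
          rw [Standard, hs, Set.image_image, hd a (mem_insert_self a s)]
        rw [coe_insert, Set.image_insert_eq, span_insert, sup_assoc, ← hV, filter_insert]
        by_cases h : Standard k z (ofLex a)
        · rw [if_pos h, card_insert_of_notMem (fun ha => hnot (mem_filter.1 ha).1), ← add_assoc,
            ← ih']
          have hne : mon z (ofLex a) ≠ 0 := fun h0 => hst.1 h (h0 ▸ zero_mem V)
          have h2 := Submodule.finrank_sup_add_finrank_inf_eq (k ∙ mon z (ofLex a)) V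
          have h3 : (k ∙ mon z (ofLex a)) ⊓ V = ⊥ :=
            disjoint_iff.1 (disjoint_span_singleton' hne |>.2 (hst.1 h)).symm
          rw [h3, finrank_bot, finrank_span_singleton hne] at h2
          omega
        · rw [if_neg h, ← ih', sup_eq_right.2 ((span_singleton_le_iff_mem _ _).2 (not_not.1
            (fun hn' => h (hst.2 hn'))))]
    have h := key ((degSet N d).image toLex)
      (fun α hα => by
        obtain ⟨β, hβ, rfl⟩ := mem_image.1 hα
        exact mem_degSet.1 hβ)
      fun α _ β hw _ => mem_image.2 ⟨ofLex β, mem_degSet.2 hw, rfl⟩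
    rw [coe_image, Set.image_image] at h
    simp only [ofLex_toLex] at h
    rw [filter_image, card_image_of_injective _ toLex.injective] at h
    simp only [ofLex_toLex] at h
    rw [pow_eq_span_sup z hsur d]
    exact h
  have htot : ∀ t, Module.finrank k Q = Module.finrank k ((n ^ t).restrictScalars k)
      + ∑ d ∈ range t, ((degSet N d).filter (Standard k z)).card := by
    intro t
    induction t with
    | zero =>
      rw [pow_zero, Ideal.one_eq_top, restrictScalars_top, finrank_top]
      simp
    | succ t ih => rw [ih, hstep, sum_range_succ]; ring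
  have h := Submodule.finrank_quotient_add_finrank ((n ^ t).restrictScalars k)
  have := htot t
  omega

/-- Growth of degree `n` forces all monomials in some `n` variables to be standard. -/
theorem sum_multichoose_le {n t b : ℕ}
    (hgrow : 2 ^ N * t ^ N * b ^ (n - 1)
      < Module.finrank k (Q ⧸ (Ideal.span (Set.range z) ^ b).restrictScalars k)) :
    ∑ e ∈ range t, Nat.multichoose n e
      ≤ Module.finrank k (Q ⧸ (Ideal.span (Set.range z) ^ t).restrictScalars k) := by
  classical
  rw [finrank_quot_pow z hsur] at hgrow ⊢
  rcases Nat.eq_zero_or_pos t with rfl | ht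
  · simp
  by_cases hex : ∃ U : Finset (Fin N), U.card = n ∧
      ∀ γ : Fin N → ℕ, (∀ i ∉ U, γ i = 0) → wt γ < t → Standard k z γ
  · obtain ⟨U, hU, hst⟩ := hex
    refine sum_le_sum fun e he => ?_
    have hcard : Nat.multichoose n e = (univ : Finset (Sym U e)).card := by
      rw [Finset.card_univ, Sym.card_sym_eq_multichoose, Fintype.card_coe, hU]
    rw [hcard]
    let ψ : Sym U e → Fin N → ℕ := fun s i => ((s : Multiset U).map Subtype.val).count i
    have hwt : ∀ s, wt (ψ s) = e := fun s => by
      simp only [wt, ψ]
      rw [Multiset.sum_count_eq_card (fun a _ => mem_univ a), Multiset.card_map]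
      exact s.2
    refine card_le_card_of_injOn ψ (fun s _ => mem_coe.2 (mem_filter.2 ⟨mem_degSet.2 (hwt s),
      hst _ (fun i hi => ?_) (by rw [hwt]; exact mem_range.1 he)⟩)) ?_
    · refine Multiset.count_eq_zero.2 fun hm => ?_
      obtain ⟨a, -, rfl⟩ := Multiset.mem_map.1 hm
      exact hi a.2
    · intro s _ s' _ h
      exact Sym.coe_injective (Multiset.map_injective Subtype.val_injective
        (Multiset.ext.2 fun i => congrFun h i))
  · push Not at hex
    refine absurd hgrow (not_lt.2 ?_)
    rw [← card_biUnion (fun i _ j _ hij => by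
      rw [Function.onFun, disjoint_left]
      intro α hi hj
      exact hij ((mem_degSet.1 (mem_filter.1 hi).1).symm.trans (mem_degSet.1 (mem_filter.1 hj).1)))]
    let box : Finset (Fin N) → Finset (Fin N → ℕ) := fun W =>
      Fintype.piFinset fun i => if i ∈ W then range b else range t
    refine (card_le_card (t := ((univ : Finset (Fin N)).powerset.filter fun W => W.card < n).biUnion
      box) fun α hα => ?_).trans (card_biUnion_le.trans ?_)
    · obtain ⟨d, hd, hα⟩ := mem_biUnion.1 hα
      obtain ⟨hdeg, hst⟩ := mem_filter.1 hα
      refine mem_biUnion.2 ⟨univ.filter fun i => t ≤ α i, mem_filter.2 ⟨by simp, ?_⟩,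
        Fintype.mem_piFinset.2 fun i => ?_⟩
      · by_contra hc
        obtain ⟨U, hUW, hUc⟩ := exists_subset_card_eq (not_lt.1 hc)
        obtain ⟨γ, hγ0, hγt, hγ⟩ := hex U hUc
        refine hγ (hst.of_le z fun i => ?_)
        by_cases hi : i ∈ U
        · have h1 := (mem_filter.1 (hUW hi)).2
          have h2 : γ i ≤ wt γ := single_le_sum (fun _ _ => Nat.zero_le _) (mem_univ i)
          exact le_trans h2 (le_trans hγt.le h1)
        · rw [hγ0 i hi]
          exact Nat.zero_le _
      · have h2 : α i ≤ wt α := single_le_sum (fun _ _ => Nat.zero_le _) (mem_univ i)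
        have := mem_degSet.1 hdeg
        have := mem_range.1 hd
        split_ifs with h <;> rw [mem_range]
        · omega
        · simp only [mem_filter, mem_univ, true_and, not_le] at h
          exact h
    · refine (sum_le_card_nsmul _ _ (t ^ N * b ^ (n - 1)) fun W hW => ?_).trans ?_
      · simp only [box, Fintype.card_piFinset, apply_ite Finset.card, card_range]
        rw [prod_ite, prod_const, prod_const, mul_comm]
        refine Nat.mul_le_mul (Nat.pow_le_pow_right ht ?_) ?_
        · exact (card_le_univ _).trans_eq (Fintype.card_fin N)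
        · rcases Nat.eq_zero_or_pos b with rfl | hb
          · rcases Nat.eq_zero_or_pos (univ.filter fun i => i ∈ W).card with h0 | h0
            · rw [h0, pow_zero]
              have : n - 1 = 0 ∨ 0 < n - 1 := Nat.eq_zero_or_pos _
              rcases this with h1 | h1
              · simp [h1]
              · simp at hgrow
            · rw [zero_pow h0.ne']; exact Nat.zero_le _
          · refine Nat.pow_le_pow_right hb ?_
            have := (mem_filter.1 hW).2
            rw [show (univ.filter fun i => i ∈ W) = W by ext; simp]
            omega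
      · rw [smul_eq_mul, mul_assoc]
        refine Nat.mul_le_mul_right _ ((card_filter_le _ _).trans ?_)
        rw [card_powerset, Finset.card_univ, Fintype.card_fin]

end Vale.Agent.P202.Embdim2
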