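import Vale.Agent.P202.Embdim2.Core

/-! The inequality between iterated sums of Hilbert functions. -/

namespace Vale.Agent.P202.Embdim2

open IsLocalRing Finset

theorem finrank_restrict {k A : Type*} [Field k] [CommRing A] [Algebra k A] (I : Ideal A) :
    Module.finrank k (A ⧸ I.restrictScalars k) = Module.finrank k (A ⧸ I) :=
  (Submodule.Quotient.restrictScalarsEquiv k I).finrank_eq

variable {k R S : Type*} [Field k] [CharZero k] [CommRing R] [CommRing S] [IsLocalRing R]
  [IsLocalRing S] [IsNoetherianRing R] [IsNoetherianRing S] [Algebra k R] [Algebra R S]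
  [Algebra k S] [IsScalarTower k R S] [IsLocalHom (algebraMap R S)] [Module.Flat R S]

/-- The Hilbert-Samuel function. -/
noncomputable def hs (A : Type*) [CommRing A] [IsLocalRing A] (l : ℕ) : ℕ :=
  (Module.length A (A ⧸ maximalIdeal A ^ l)).toNat

theorem finrank_quot (hA : Function.Surjective (algebraMap k (ResidueField R))) (l : ℕ) :
    Module.Finite k (R ⧸ maximalIdeal R ^ l) ∧
      hs R l = Module.finrank k (R ⧸ maximalIdeal R ^ l) :=
  finite_and_finrank hA _ (length_quot_ne_top l)

/-- The iterated sums of the Hilbert functions compare. -/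
theorem key (hkR : Function.Surjective (algebraMap k (ResidueField R)))
    (hkS : Function.Surjective (algebraMap k (ResidueField S)))
    (x y : S) (hn : maximalIdeal S = mS R S ⊔ Ideal.span {x, y})
    {N₀ : ℕ} (hfin : maximalIdeal S ^ N₀ ≤ mS R S)
    {n : ℕ} (hn0 : 1 ≤ n) (g : Fin n → R) (hg : Ideal.span (Set.range g) = maximalIdeal R)
    (i : ℕ) : conv n (hs R) i ≤ conv n (hs S) i := by
  classical
  -- the monomial basis of the closed fibre
  set I₀ : Ideal S := mS R S with hI₀
  have hlen₀ : Module.length S (S ⧸ I₀) ≠ ⊤ := ne_top_of_le_ne_top (length_quot_ne_top N₀)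
    (Module.length_le_of_surjective (Submodule.factor hfin) (Submodule.factor_surjective hfin))
  obtain ⟨hfin₀, hr⟩ := finite_and_finrank hkS (S ⧸ I₀) hlen₀
  let π₀ : S →ₐ[k] S ⧸ I₀ := Ideal.Quotient.mkₐ k I₀
  have hπ₀ : Function.Surjective π₀ := Ideal.Quotient.mkₐ_surjective k I₀
  let z₀ : Fin 2 → S ⧸ I₀ := π₀ ∘ ![x, y]
  have hspan₀ : Ideal.span (Set.range z₀) = (maximalIdeal S).map π₀ := by
    rw [hn, Ideal.map_sup, Ideal.map_span, Set.range_comp, Matrix.range_cons, Matrix.range_cons,
      Matrix.range_empty, Set.union_empty, Set.singleton_union]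
    have : I₀.map π₀ = ⊥ := by
      rw [Ideal.map_eq_bot_iff_le_ker]
      intro s hs
      exact Ideal.Quotient.eq_zero_iff_mem.2 hs
    rw [this, bot_sup_eq]
  have hsur₀ : ∀ q, ∃ c : k, q - algebraMap k (S ⧸ I₀) c ∈ Ideal.span (Set.range z₀) := fun q => by
    obtain ⟨q, rfl⟩ := hπ₀ q
    obtain ⟨c, hc⟩ := exists_sub_mem hkS q
    refine ⟨c, hspan₀ ▸ ?_⟩
    rw [← AlgHom.commutes π₀, ← map_sub]
    exact Ideal.mem_map_of_mem _ hc
  have hnil₀ : Ideal.span (Set.range z₀) ^ N₀ = ⊥ := by
    rw [hspan₀, ← Ideal.map_pow, Ideal.map_eq_bot_iff_le_ker]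
    intro s hs
    exact Ideal.Quotient.eq_zero_iff_mem.2 (hfin hs)
  obtain ⟨B₀, hB₀, hB₀span, hB₀li⟩ := exists_linearIndependent k
    (mon z₀ '' ((range N₀).biUnion (degSet 2) : Set (Fin 2 → ℕ)))
  rw [span_mon_eq_top z₀ hsur₀ hnil₀] at hB₀span
  have : Fintype B₀ := hB₀li.setFinite.fintype
  choose α hα hα' using fun l : B₀ => hB₀ l.2
  let a : B₀ → ℕ := fun l => α l 0
  let b : B₀ → ℕ := fun l => α l 1
  let w : B₀ → S := fun l => x ^ a l * y ^ b l
  have hw : ∀ l, π₀ (w l) = (l : S ⧸ I₀) := fun l => by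
    rw [← hα' l]
    simp [mon, z₀, w, a, b, Fin.prod_univ_two]
  have hcard : Module.finrank k (S ⧸ I₀) = Fintype.card B₀ := by
    rw [← finrank_span_eq_card hB₀li, Subtype.range_coe, hB₀span, finrank_top]
  have hN₀ : 1 ≤ N₀ := by
    by_contra h
    obtain rfl : N₀ = 0 := by omega
    rw [pow_zero, Ideal.one_eq_top] at hfin
    exact (maximalIdeal.isMaximal S).ne_top (top_le_iff.1 (hfin.trans mS_le))
  -- the order of truncation
  obtain ⟨j, hij, hj1, hbd⟩ : ∃ j, i ≤ j ∧ 1 ≤ j ∧ ∀ t ≤ i, bd n N₀ t ≤ j := by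
    refine ⟨i + 1 + ∑ t ∈ range (i + 1), bd n N₀ t, by omega, by omega, fun t ht => ?_⟩
    exact (Finset.single_le_sum (f := bd n N₀) (fun _ _ => Nat.zero_le _)
      (mem_range.2 (Nat.lt_succ_of_le ht))).trans (Nat.le_add_left _ _)
  set m : Ideal R := maximalIdeal R with hm
  set IS : Ideal S := (m ^ j).map (algebraMap R S) with hIS
  have hmj : m ^ j ≤ m := Ideal.pow_le_self (by omega)
  have : IsScalarTower k (R ⧸ m ^ j) (S ⧸ IS) := IsScalarTower.of_algebraMap_eq fun c => by
    show Ideal.Quotient.mk IS (algebraMap k S c) = Ideal.Quotient.mk IS _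
    rw [IsScalarTower.algebraMap_apply k R S]
  have hfinR : Module.Finite k (R ⧸ m ^ j) := (finrank_quot hkR j).1
  let πR : R →ₐ[k] R ⧸ m ^ j := Ideal.Quotient.mkₐ k (m ^ j)
  let πS : S →ₐ[k] S ⧸ IS := Ideal.Quotient.mkₐ k IS
  have hπS : Function.Surjective πS := Ideal.Quotient.mkₐ_surjective k IS
  -- the fibre is free on the monomials
  let Φ : (B₀ → R ⧸ m ^ j) →ₗ[R ⧸ m ^ j] S ⧸ IS :=
    Fintype.linearCombination (R ⧸ m ^ j) fun l => πS (w l)
  have hΦsurj : Function.Surjective Φ := by
    let W : Submodule R (S ⧸ IS) := Submodule.span R (Set.range fun l => πS (w l))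
    have hW : W = ⊤ := by
      refine sup_eq_top_of_nilpotent W m (s := j) ?_ ?_
      · rw [eq_bot_iff, Submodule.smul_le]
        intro r hr t _
        obtain ⟨t, rfl⟩ := hπS t
        rw [Submodule.mem_bot]
        show Ideal.Quotient.mk IS (r • t) = 0
        rw [Ideal.Quotient.eq_zero_iff_mem, Algebra.smul_def]
        exact Ideal.mul_mem_right _ _ (Ideal.mem_map_of_mem _ hr)
      · rw [eq_top_iff]
        intro t _
        obtain ⟨t, rfl⟩ := hπS t
        have hc : π₀ t ∈ Submodule.span k (B₀ : Set (S ⧸ I₀)) := hB₀span ▸ Submodule.mem_top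
        rw [← Subtype.range_coe (s := B₀), Submodule.mem_span_range_iff_exists_fun] at hc
        obtain ⟨c, hc⟩ := hc
        have hd : t - ∑ l, algebraMap k S (c l) * w l ∈ I₀ := by
          refine Ideal.Quotient.eq_zero_iff_mem.1 ?_
          show π₀ (t - ∑ l, algebraMap k S (c l) * w l) = 0
          rw [map_sub, map_sum, ← hc, sub_eq_zero]
          refine sum_congr rfl fun l _ => ?_
          rw [map_mul, AlgHom.commutes, hw, Algebra.smul_def]
        rw [← sub_add_cancel t (∑ l, algebraMap k S (c l) * w l), map_add]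
        refine add_mem (Submodule.mem_sup_right ?_) (Submodule.mem_sup_left ?_)
        · have hmap : I₀.restrictScalars R ≤
              (m • (⊤ : Submodule R (S ⧸ IS))).comap (Ideal.Quotient.mkₐ R IS).toLinearMap := by
            rw [hI₀, mS, ← Ideal.smul_top_eq_map, Submodule.smul_le]
            intro r hr s _
            rw [Submodule.mem_comap, AlgHom.toLinearMap_apply, map_smul]
            exact Submodule.smul_mem_smul hr Submodule.mem_top
          exact hmap hd
        · rw [map_sum]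
          refine sum_mem fun l _ => ?_
          have : πS (algebraMap k S (c l) * w l) = algebraMap k R (c l) • πS (w l) := by
            rw [IsScalarTower.algebraMap_apply k R S, ← Algebra.smul_def]
            rfl
          rw [this]
          exact Submodule.smul_mem _ _ (Submodule.subset_span ⟨l, rfl⟩)
    intro t
    have ht : t ∈ W := hW ▸ Submodule.mem_top
    obtain ⟨c, hc⟩ := (Submodule.mem_span_range_iff_exists_fun R).1 ht
    refine ⟨fun l => πR (c l), ?_⟩
    rw [← hc, Fintype.linearCombination_apply]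
    refine sum_congr rfl fun l _ => ?_
    obtain ⟨u, hu⟩ := hπS (πS (w l))
    rfl
  have hfinS : Module.Finite k (S ⧸ IS) :=
    Module.Finite.of_surjective (Φ.restrictScalars k) hΦsurj
  have hdimS : Module.finrank k (S ⧸ IS)
      = Fintype.card B₀ * Module.finrank k (R ⧸ m ^ j) := by
    have hlenS : Module.length S (S ⧸ IS)
        = Module.length R (R ⧸ m ^ j) * Module.length S (S ⧸ I₀) := by
      rw [hI₀, mS, ← IsLocalRing.length_baseChange R S (R ⧸ m ^ j),
        ← (Algebra.TensorProduct.quotIdealMapEquivTensorQuot S (m ^ j)).toLinearEquiv.length_eq]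
    have hne : Module.length S (S ⧸ IS) ≠ ⊤ := by
      rw [hlenS]
      exact WithTop.mul_ne_top (length_quot_ne_top j) hlen₀
    rw [← (finite_and_finrank hkS (S ⧸ IS) hne).2, hlenS, ENat.toNat_mul, hr, hcard,
      show (Module.length R (R ⧸ m ^ j)).toNat = Module.finrank k (R ⧸ m ^ j) from
        (finrank_quot hkR j).2]
    ring
  have hΦ : Function.Bijective Φ := by
    refine ⟨?_, hΦsurj⟩
    have heq : Module.finrank k (B₀ → R ⧸ m ^ j) = Module.finrank k (S ⧸ IS) := by
      rw [hdimS, Module.finrank_pi_fintype, sum_const, Finset.card_univ, smul_eq_mul]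
    exact (LinearMap.injective_iff_surjective_of_finrank_eq_finrank heq
      (f := Φ.restrictScalars k)).2 hΦsurj
  let bw := Module.Basis.ofEquivFun (LinearEquiv.ofBijective Φ hΦ).symm
  have hbw : ∀ l, bw l = πS (w l) := fun l => by
    simp [bw, Module.Basis.coe_ofEquivFun, Φ, Fintype.linearCombination_apply_single]
  -- the residue map
  have hres : Function.Bijective (Algebra.ofId k (ResidueField R)) :=
    ⟨(algebraMap k (ResidueField R)).injective, hkR⟩
  let ev₀ : R →ₐ[k] k :=
    (AlgEquiv.ofBijective _ hres).symm.toAlgHom.comp (IsScalarTower.toAlgHom k R (ResidueField R))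
  have hev₀ : ∀ r ∈ m, ev₀ r = 0 := fun r hr => by
    show (AlgEquiv.ofBijective _ hres).symm (residue R r) = 0
    rw [(residue_eq_zero_iff r).2 hr, map_zero]
  let ev : (R ⧸ m ^ j) →ₐ[k] k := Ideal.Quotient.liftₐ (m ^ j) ev₀ fun r hr => hev₀ r (hmj hr)
  -- the presentation
  let gb : Fin n → R ⧸ m ^ j := fun l => πR (g l)
  have hgb : Ideal.span (Set.range gb) = m.map πR := by
    rw [show Set.range gb = πR '' Set.range g from Set.range_comp πR g, ← Ideal.map_span, hg]
  have hmR : m.map πR ^ j = ⊥ := by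
    rw [← Ideal.map_pow]
    exact Ideal.map_quotient_self _
  let φ : Trunc k n j →ₐ[k] R ⧸ m ^ j :=
    Ideal.Quotient.liftₐ _ (MvPolynomial.aeval gb) fun p hp => by
      have h := Ideal.mem_map_of_mem (MvPolynomial.aeval gb) hp
      rw [Ideal.map_pow, Ideal.map_span, ← Set.range_comp,
        show (MvPolynomial.aeval gb : MvPolynomial (Fin n) k → R ⧸ m ^ j) ∘ MvPolynomial.X = gb from
          funext fun l => MvPolynomial.aeval_X gb l, hgb, hmR] at h
      exact h
  have hφY : ∀ l, φ (tvar k n j l) = gb l := fun l => MvPolynomial.aeval_X gb l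
  have hφ : Function.Surjective φ := by
    have hsurR : ∀ q, ∃ c : k, q - algebraMap k (R ⧸ m ^ j) c ∈ Ideal.span (Set.range gb) := fun q => by
      obtain ⟨q, rfl⟩ := Ideal.Quotient.mkₐ_surjective k (m ^ j) q
      obtain ⟨c, hc⟩ := exists_sub_mem hkR q
      refine ⟨c, hgb ▸ ?_⟩
      rw [← AlgHom.commutes πR, ← map_sub]
      exact Ideal.mem_map_of_mem _ hc
    have h : φ.range.toSubmodule = ⊤ := by
      rw [eq_top_iff, ← span_mon_eq_top gb hsurR (hgb ▸ hmR : Ideal.span (Set.range gb) ^ j = ⊥),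
        Submodule.span_le]
      rintro _ ⟨δ, -, rfl⟩
      exact φ.range.prod_mem fun l _ => φ.range.pow_mem ⟨tvar k n j l, hφY l⟩ _
    intro q
    exact (h ▸ Submodule.mem_top : q ∈ φ.range.toSubmodule)
  have hev : ∀ l, ev (φ (tvar k n j l)) = 0 := fun l => by
    rw [hφY]
    exact hev₀ _ (hg ▸ Ideal.subset_span ⟨l, rfl⟩)
  -- the closed fibre
  let χ : (S ⧸ IS) →ₐ[k] S ⧸ I₀ := Ideal.Quotient.liftₐ IS π₀ fun s hs =>
    Ideal.Quotient.eq_zero_iff_mem.2 (Ideal.map_mono hmj hs)
  have hχR : ∀ c, χ (algebraMap (R ⧸ m ^ j) (S ⧸ IS) c) = algebraMap k (S ⧸ I₀) (ev c) := by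
    intro c
    obtain ⟨r, rfl⟩ := Ideal.Quotient.mkₐ_surjective k (m ^ j) c
    show π₀ (algebraMap R S r) = algebraMap k (S ⧸ I₀) (ev₀ r)
    obtain ⟨c, hc⟩ := exists_sub_mem hkR r
    have h := hev₀ _ hc
    rw [map_sub, AlgHom.commutes, sub_eq_zero] at h
    rw [h, Algebra.algebraMap_self, RingHom.id_apply, ← AlgHom.commutes π₀]
    refine Ideal.Quotient.eq.2 ?_
    rw [IsScalarTower.algebraMap_apply k R S, ← map_sub]
    exact Ideal.mem_map_of_mem _ hc
  have hnil : ∀ s ∈ Ideal.span {πS x, πS y} ^ N₀, ∀ l, ev (bw.repr s l) = 0 := by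
    intro s hs l
    have h1 := Ideal.mem_map_of_mem χ hs
    rw [Ideal.map_pow, Ideal.map_span, Set.image_insert_eq, Set.image_singleton] at h1
    have h0 : χ s ∈ (⊥ : Ideal (S ⧸ I₀)) := by
      rw [← hnil₀]
      refine Ideal.pow_right_mono (Ideal.span_mono ?_) _ h1
      rintro _ (rfl | rfl)
      · exact ⟨0, rfl⟩
      · exact ⟨1, rfl⟩
    rw [Ideal.mem_bot, ← bw.sum_repr s, map_sum] at h0
    refine Fintype.linearIndependent_iff.1 hB₀li (fun l => ev (bw.repr s l)) ?_ l
    rw [← h0]
    refine sum_congr rfl fun l _ => ?_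
    rw [Algebra.smul_def, Algebra.smul_def, map_mul, hχR, hbw,
      show χ (πS (w l)) = π₀ (w l) from rfl, hw]
  have : Nonempty B₀ := by
    by_contra hne
    rw [not_nonempty_iff] at hne
    have h0 : Module.finrank k (S ⧸ I₀) = 0 := by rw [hcard, Fintype.card_eq_zero]
    have : Nontrivial (S ⧸ I₀) := Ideal.Quotient.nontrivial_iff.2
      (fun h => (maximalIdeal.isMaximal S).ne_top (top_le_iff.1 (h ▸ mS_le)))
    exact absurd h0 Module.finrank_pos.ne'
  have hmon : ∀ l, bw l = πS x ^ a l * πS y ^ b l := fun l => by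
    rw [hbw, map_mul, map_pow, map_pow]
  have h := core φ hφ ev hev bw (πS x) (πS y) a b hmon hnil hn0 hbd
  have hφr : Ideal.span (Set.range (φ ∘ tvar k n j)) = m.map πR := by
    rw [show φ ∘ tvar k n j = gb from funext hφY, hgb]
  rw [hφr, ← conv_partial] at h
  refine le_trans (le_of_eq (sum_congr rfl fun l hl => ?_))
    (h.trans (le_of_eq (sum_congr rfl fun l hl => ?_)))
  · have hlj : l ≤ j := (Nat.le_of_lt_succ (mem_range.1 hl)).trans hij
    simp only [sum_grDim]
    rw [← Ideal.map_pow, ← finrank_comap πR (Ideal.Quotient.mkₐ_surjective k _),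
      Ideal.comap_map_of_surjective' πR (Ideal.Quotient.mkₐ_surjective k _)]
    have hker : RingHom.ker πR = m ^ j := Ideal.mk_ker
    rw [hker, sup_eq_left.2 (Ideal.pow_le_pow_right hlj), finrank_restrict, (finrank_quot hkR l).2]
  · have hlj : l ≤ j := (Nat.le_of_lt_succ (mem_range.1 hl)).trans hij
    have hideal : (m.map πR).map (algebraMap (R ⧸ m ^ j) (S ⧸ IS)) ⊔ Ideal.span {πS x, πS y}
        = (maximalIdeal S).map πS := by
      rw [hn, Ideal.map_sup, Ideal.map_span πS, Set.image_insert_eq, Set.image_singleton]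
      congr 1
      change Ideal.map (algebraMap (R ⧸ m ^ j) (S ⧸ IS)) (Ideal.map (Ideal.Quotient.mk (m ^ j)) m)
        = Ideal.map (Ideal.Quotient.mk IS) (Ideal.map (algebraMap R S) m)
      rw [Ideal.map_map, Ideal.map_map]
      rfl
    dsimp only
    erw [hideal]
    rw [← Ideal.map_pow, ← finrank_comap πS hπS, Ideal.comap_map_of_surjective' πS hπS]
    have hker : RingHom.ker πS = IS := Ideal.mk_ker
    have hISle : IS ≤ maximalIdeal S ^ l := by
      rw [hIS, Ideal.map_pow]
      exact (Ideal.pow_right_mono mS_le j).trans (Ideal.pow_le_pow_right hlj)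
    rw [hker, sup_eq_left.2 hISle, finrank_restrict, (finrank_quot hkS l).2]

end Vale.Agent.P202.Embdim2
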