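import Mathlib

/-! Commuting pairs of matrices with a cyclic vector lift along surjections of artinian local
algebras in characteristic zero: the obstruction is killed by a trace identity. -/

namespace Vale.Agent.P202.Embdim2

open Matrix

variable {k : Type*} [Field k] {ι : Type*} [Fintype ι] [DecidableEq ι]

/-- The first-order change of a commutator. -/
noncomputable def tangent (X Y : Matrix ι ι k) :
    Matrix ι ι k × Matrix ι ι k →ₗ[k] Matrix ι ι k where
  toFun p := X * p.2 - p.2 * X + (p.1 * Y - Y * p.1)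
  map_add' p q := by
    simp only [Prod.fst_add, Prod.snd_add, mul_add, add_mul]
    abel
  map_smul' c p := by
    simp only [Prod.smul_fst, Prod.smul_snd, RingHom.id_apply, mul_smul_comm, smul_mul_assoc,
      smul_sub, smul_add]

theorem tangent_apply (X Y A B : Matrix ι ι k) :
    tangent X Y (A, B) = X * B - B * X + (A * Y - Y * A) := rfl

/-- A matrix orthogonal to all monomials in a cyclic commuting pair is a first-order change of the
commutator. -/
theorem mem_range_tangent {X Y : Matrix ι ι k} (hc : Commute X Y) (e : ι → k) (a b : ι → ℕ)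
    (hbasis : Submodule.span k (Set.range fun l => (X ^ a l * Y ^ b l) *ᵥ e) = ⊤)
    {C : Matrix ι ι k} (hC : ∀ l, trace (C * (X ^ a l * Y ^ b l)) = 0) :
    C ∈ LinearMap.range (tangent X Y) := by
  by_contra h
  obtain ⟨f, hf, hker⟩ := Submodule.exists_dual_map_eq_bot_of_notMem h inferInstance
  let Z : Matrix ι ι k := Matrix.of fun m l => f (Matrix.single l m 1)
  have hZ : ∀ M, f M = trace (M * Z) := fun M => by
    conv_lhs => rw [matrix_eq_sum_single M]
    simp only [map_sum, trace, Matrix.diag, mul_apply, Z, of_apply]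
    refine Finset.sum_congr rfl fun l _ => Finset.sum_congr rfl fun m _ => ?_
    rw [show Matrix.single l m (M l m) = M l m • Matrix.single l m (1 : k) by simp, map_smul,
      smul_eq_mul]
  have h0 : ∀ A B, f (tangent X Y (A, B)) = 0 := fun A B => by
    have : f (tangent X Y (A, B)) ∈ (LinearMap.range (tangent X Y)).map f :=
      ⟨_, LinearMap.mem_range_self _ _, rfl⟩
    rwa [hker, Submodule.mem_bot] at this
  have hX : Commute Z X := by
    have hz : ∀ B, trace (B * (Z * X - X * Z)) = 0 := fun B => by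
      have := h0 0 B
      rw [hZ, tangent_apply, zero_mul, mul_zero, sub_zero, add_zero, sub_mul, trace_sub,
        mul_assoc, mul_assoc, trace_mul_comm X (B * Z)] at this
      rw [mul_sub, trace_sub, ← mul_assoc B Z X]
      exact this
    refine sub_eq_zero.1 (Matrix.ext fun i j => ?_)
    have := hz (Matrix.single j i 1)
    simpa [trace_single_mul] using this
  have hY : Commute Z Y := by
    have hz : ∀ A, trace (A * (Y * Z - Z * Y)) = 0 := fun A => by
      have := h0 A 0
      rw [hZ, tangent_apply, mul_zero, zero_mul, sub_zero, zero_add, sub_mul, trace_sub,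
        mul_assoc, mul_assoc, trace_mul_comm Y (A * Z)] at this
      rw [mul_sub, trace_sub, ← mul_assoc A Z Y]
      exact this
    refine (sub_eq_zero.1 (Matrix.ext fun i j => ?_)).symm
    have := hz (Matrix.single j i 1)
    simpa [trace_single_mul] using this
  obtain ⟨c, hc'⟩ := (Submodule.mem_span_range_iff_exists_fun k).1
    (hbasis ▸ Submodule.mem_top (x := Z *ᵥ e))
  let p : Matrix ι ι k := ∑ l, c l • (X ^ a l * Y ^ b l)
  have hp : ∀ l, Commute p (X ^ a l * Y ^ b l) := fun l => by
    refine Commute.sum_left _ _ _ fun m _ => Commute.smul_left ?_ _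
    exact ((((Commute.refl X).pow_pow _ _).mul_left (hc.symm.pow_pow _ _))).mul_right
      (((hc.pow_pow _ _)).mul_left ((Commute.refl Y).pow_pow _ _))
  have hpe : Z *ᵥ e = p *ᵥ e := by
    rw [← hc', sum_mulVec]
    simp [smul_mulVec]
  have hZp : Z = p := by
    have hlin : (Z.mulVecLin : (ι → k) →ₗ[k] (ι → k)) = p.mulVecLin := by
      refine LinearMap.ext_on hbasis ?_
      rintro _ ⟨l, rfl⟩
      show Z *ᵥ ((X ^ a l * Y ^ b l) *ᵥ e) = p *ᵥ ((X ^ a l * Y ^ b l) *ᵥ e)
      rw [mulVec_mulVec, mulVec_mulVec, ((hX.pow_right _).mul_right (hY.pow_right _)).eq,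
        (hp l).eq, ← mulVec_mulVec e _ Z, hpe, mulVec_mulVec]
    exact Matrix.ext_iff_mulVec.2 fun v => LinearMap.congr_fun hlin v
  apply hf
  rw [hZ, hZp, Finset.mul_sum, trace_sum]
  exact Finset.sum_eq_zero fun l _ => by rw [mul_smul_comm, trace_smul, hC, smul_zero]

section Identity

variable {Q : Type*} [CommRing Q] [Algebra k Q] (ev : Q →ₐ[k] k) (J : Submodule k Q)
  (hJ : ∀ c ∈ J, ∀ u, c * u = c * algebraMap k Q (ev u))

include hJ

omit [DecidableEq ι] in
theorem small_mul {C : Matrix ι ι Q} (hC : ∀ i j, C i j ∈ J) (M : Matrix ι ι Q) :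
    C * M = C * (M.map ev).map (algebraMap k Q) := by
  ext i j
  simp only [mul_apply, map_apply]
  exact Finset.sum_congr rfl fun l _ => hJ _ (hC i l) _

/-- The trace identity: the commutator is orthogonal to all monomials. -/
theorem trace_identity [CharZero k] (X Y : Matrix ι ι Q)
    (hC : ∀ i j, (X * Y - Y * X) i j ∈ J) (hc : Commute (X.map ev) (Y.map ev)) (a b : ℕ) :
    trace ((X * Y - Y * X) * (X ^ a * Y ^ b)) = 0 := by
  set C := X * Y - Y * X with hCdef
  set T := trace (C * (X ^ a * Y ^ b)) with hT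
  let f := ev.toRingHom.mapMatrix (m := ι)
  have hrot : ∀ i ≤ a, trace (X ^ i * C * (X ^ (a - i) * Y ^ b)) = T := by
    intro i hi
    rw [mul_assoc, trace_mul_comm, mul_assoc, hT, small_mul ev J hJ hC (X ^ (a - i) * Y ^ b * X ^ i),
      small_mul ev J hJ hC (X ^ a * Y ^ b)]
    congr 3
    show f (X ^ (a - i) * Y ^ b * X ^ i) = f (X ^ a * Y ^ b)
    simp only [map_mul, map_pow]
    have hc' : Commute (f Y) (f X) := hc.symm
    rw [mul_assoc, (hc'.pow_pow b i).eq, ← mul_assoc,
      ← pow_add, Nat.sub_add_cancel hi]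
  have key : ∀ i ≤ a,
      trace (X ^ (i + 1) * (Y * (X ^ (a - i) * Y ^ b)))
        = trace (Y * (X ^ (a + 1) * Y ^ b)) + (i + 1) • T := by
    intro i hi
    induction i with
    | zero =>
      rw [pow_one, Nat.sub_zero, zero_add, one_smul, pow_succ', hT, hCdef, sub_mul, trace_sub]
      simp only [mul_assoc]
      abel
    | succ i ih =>
      rw [succ_nsmul, ← add_assoc, ← ih (by omega), ← hrot (i + 1) hi, hCdef, mul_sub, sub_mul,
        trace_sub, show a - i = a - (i + 1) + 1 by omega, pow_succ' X (a - (i + 1)),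
        pow_succ X (i + 1)]
      simp only [mul_assoc]
      abel
  have h := key a le_rfl
  rw [Nat.sub_self, pow_zero, one_mul, ← pow_succ' Y b] at h
  rw [trace_mul_comm Y (X ^ (a + 1) * Y ^ b), mul_assoc, ← pow_succ Y b] at h
  have h0 : ((a + 1 : ℕ) : k) • T = 0 := by
    rw [Nat.cast_smul_eq_nsmul]
    exact (left_eq_add.1 h)
  exact (smul_eq_zero.1 h0).resolve_left (Nat.cast_ne_zero.2 (Nat.succ_ne_zero a))

/-- One step of the lifting. -/
theorem lift_step [CharZero k] [Module.Finite k Q] (hJ' : ∀ c ∈ J, ev c = 0)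
    (X Y : Matrix ι ι Q) (hC : ∀ i j, (X * Y - Y * X) i j ∈ J) (e : ι → k) (a b : ι → ℕ)
    (hbasis : Submodule.span k
      (Set.range fun l => (X.map ev ^ a l * Y.map ev ^ b l) *ᵥ e) = ⊤) :
    ∃ A B : Matrix ι ι Q, (∀ i j, A i j ∈ J) ∧ (∀ i j, B i j ∈ J) ∧
      Commute (X + A) (Y + B) := by
  classical
  let f := ev.toRingHom.mapMatrix (m := ι)
  have hc : Commute (X.map ev) (Y.map ev) := by
    show f X * f Y = f Y * f X
    rw [← sub_eq_zero, ← map_mul, ← map_mul, ← map_sub]
    exact Matrix.ext fun i j => hJ' _ (hC i j)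
  let bJ := Module.finBasis k J
  have hμ : ∀ v, ∃ μ : Q →ₗ[k] k, ∀ c : J, μ (c : Q) = bJ.repr c v := fun v => by
    obtain ⟨μ, hμ⟩ := LinearMap.exists_extend (bJ.coord v)
    exact ⟨μ, fun c => LinearMap.congr_fun hμ c⟩
  choose μ hμ using hμ
  have hexp : ∀ c ∈ J, ∑ v, μ v c • (bJ v : Q) = c := fun c hc => by
    have := congrArg (fun t : J => (t : Q)) (bJ.sum_repr ⟨c, hc⟩)
    simpa [← hμ] using this
  set C := X * Y - Y * X with hCdef
  have hrange : ∀ v, -(C.map (μ v)) ∈ LinearMap.range (tangent (X.map ev) (Y.map ev)) := by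
    intro v
    refine mem_range_tangent hc e a b hbasis fun l => ?_
    have h0 := congrArg (μ v) (trace_identity ev J hJ X Y hC hc (a l) (b l))
    rw [small_mul ev J hJ hC, map_zero] at h0
    have hf : (X ^ a l * Y ^ b l).map ev = X.map ev ^ a l * Y.map ev ^ b l := by
      show f _ = f X ^ a l * f Y ^ b l
      rw [map_mul, map_pow, map_pow]
    rw [hf] at h0
    rw [neg_mul, trace_neg, neg_eq_zero, ← h0]
    simp only [trace, Matrix.diag, mul_apply, map_apply, map_sum]
    refine Finset.sum_congr rfl fun i _ => Finset.sum_congr rfl fun m _ => ?_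
    rw [← map_sum, ← Algebra.commutes, ← Algebra.smul_def, map_smul, smul_eq_mul, mul_comm]
  choose AB hAB using hrange
  let lift : (_ → Matrix ι ι k) → Matrix ι ι Q := fun M => ∑ v, (bJ v : Q) • (M v).map (algebraMap k Q)
  have hlift : ∀ M i j, lift M i j ∈ J := fun M i j => by
    simp only [lift, Matrix.sum_apply, Matrix.smul_apply, map_apply, smul_eq_mul]
    refine Submodule.sum_mem _ fun v _ => ?_
    rw [← Algebra.commutes, ← Algebra.smul_def]
    exact J.smul_mem _ (bJ v).2
  refine ⟨lift fun v => (AB v).1, lift fun v => (AB v).2, hlift _, hlift _, ?_⟩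
  set A := lift fun v => (AB v).1 with hA
  set B := lift fun v => (AB v).2 with hB
  have hsq : ∀ U V : Matrix ι ι Q, (∀ i j, U i j ∈ J) → (∀ i j, V i j ∈ J) → U * V = 0 := by
    intro U V hU hV
    rw [small_mul ev J hJ hU V,
      show V.map ev = 0 from Matrix.ext fun i j => hJ' _ (hV i j)]
    simp
  have hleft : ∀ (M : Matrix ι ι Q) (N : _ → Matrix ι ι k),
      M * lift N = lift fun v => M.map ev * N v := by
    intro M N
    simp only [lift, Finset.mul_sum]
    refine Finset.sum_congr rfl fun v _ => Matrix.ext fun i j => ?_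
    simp only [mul_apply, Matrix.smul_apply, map_apply, smul_eq_mul, map_sum, map_mul,
      Finset.mul_sum]
    refine Finset.sum_congr rfl fun l _ => ?_
    rw [mul_left_comm, ← mul_assoc, hJ _ (bJ v).2, mul_assoc]
  have hright : ∀ (M : Matrix ι ι Q) (N : _ → Matrix ι ι k),
      lift N * M = lift fun v => N v * M.map ev := by
    intro M N
    simp only [lift, Finset.sum_mul]
    refine Finset.sum_congr rfl fun v _ => Matrix.ext fun i j => ?_
    simp only [mul_apply, Matrix.smul_apply, map_apply, smul_eq_mul, map_sum, map_mul,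
      Finset.mul_sum]
    refine Finset.sum_congr rfl fun l _ => ?_
    rw [mul_right_comm, hJ _ (bJ v).2]
    ring
  have hCexp : C = lift fun v => C.map (μ v) := by
    refine Matrix.ext fun i j => ?_
    simp only [lift, Matrix.sum_apply, Matrix.smul_apply, map_apply, smul_eq_mul]
    conv_lhs => rw [← hexp _ (hC i j)]
    exact Finset.sum_congr rfl fun v _ => by rw [Algebra.smul_def, mul_comm]
  have hlin : C + (X * B - B * X + (A * Y - Y * A)) = 0 := by
    rw [hA, hB, hleft, hright, hleft, hright]
    nth_rewrite 1 [hCexp]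
    simp only [lift, ← Finset.sum_sub_distrib, ← Finset.sum_add_distrib, ← smul_sub, ← smul_add]
    refine Finset.sum_eq_zero fun v _ => ?_
    have h := hAB v
    rw [← Prod.eta (AB v), tangent_apply] at h
    let g := (algebraMap k Q).mapMatrix (m := ι)
    show (bJ v : Q) • (g _ + (g _ - g _ + (g _ - g _))) = 0
    rw [← map_sub, ← map_sub, ← map_add, ← map_add, h, add_neg_cancel, map_zero, smul_zero]
  show (X + A) * (Y + B) = (Y + B) * (X + A)
  simp only [add_mul, mul_add, hsq A B (hlift _) (hlift _), hsq B A (hlift _) (hlift _), add_zero]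
  rw [← sub_eq_zero, ← hlin, hCdef]
  abel

end Identity

end Vale.Agent.P202.Embdim2
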