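import Vale.Agent.P202.Embdim2.Count
import Vale.Agent.P202.Basic

/-! Truncated polynomial rings and lengths over algebras with residue field the ground field. -/

namespace Vale.Agent.P202.Embdim2

open IsLocalRing Finset

section Length

variable {k A : Type*} [Field k] [CommRing A] [IsLocalRing A] [Algebra k A]

/-- Over a local algebra with residue field `k`, finite length means finite dimension. -/
theorem finite_and_finrank (hA : Function.Surjective (algebraMap k (ResidueField A))) (M : Type*)
    [AddCommGroup M] [Module A M] [Module k M] [IsScalarTower k A M]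
    (h : Module.length A M ≠ ⊤) :
    Module.Finite k M ∧ (Module.length A M).toNat = Module.finrank k M := by
  have : IsLocalHom (algebraMap k A) := ⟨fun a ha => isUnit_iff_ne_zero.2 fun h0 => by
    rw [h0, map_zero] at ha
    exact not_isUnit_zero ha⟩
  have h1 : Module.length (ResidueField k) (ResidueField A) = 1 := by
    rw [← Module.length_eq_of_surjective (R := ResidueField k) (S := k) (M := ResidueField A)
      residue_surjective]
    have hfin : Module.Finite k (ResidueField A) :=
      Module.Finite.of_surjective (Algebra.linearMap k (ResidueField A)) hA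
    rw [Module.length_eq_finrank]
    have hle := (Algebra.linearMap k (ResidueField A)).finrank_range_le
    rw [LinearMap.range_eq_top.2 hA, finrank_top, Module.finrank_self] at hle
    have hpos : 0 < Module.finrank k (ResidueField A) := Module.finrank_pos
    norm_cast
    omega
  have h2 := IsLocalRing.length_restrictScalars k A M
  rw [h1, mul_one] at h2
  have hne : Module.length k M ≠ ⊤ := h2 ▸ h
  rw [Module.length_ne_top_iff, isFiniteLength_iff_isNoetherian_isArtinian] at hne
  have : IsNoetherian k M := hne.1
  have hfin : Module.Finite k M := inferInstance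
  exact ⟨hfin, by rw [← h2, Module.length_eq_finrank, ENat.toNat_coe]⟩

theorem exists_sub_mem (hA : Function.Surjective (algebraMap k (ResidueField A))) (q : A) :
    ∃ c : k, q - algebraMap k A c ∈ maximalIdeal A := by
  obtain ⟨c, hc⟩ := hA (residue A q)
  refine ⟨c, ?_⟩
  rw [← residue_eq_zero_iff, map_sub, ← hc, sub_eq_zero]
  rfl

end Length

section Poly

variable {k : Type*} [Field k] (n j : ℕ)

/-- The truncated polynomial ring. -/
abbrev Trunc (k : Type*) [Field k] (n j : ℕ) :=
  MvPolynomial (Fin n) k ⧸ MvPolynomial.idealOfVars (Fin n) k ^ j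

/-- The classes of the variables. -/
noncomputable def tvar (k : Type*) [Field k] (n j : ℕ) (l : Fin n) : Trunc k n j :=
  Ideal.Quotient.mk _ (MvPolynomial.X l)

theorem map_idealOfVars : (MvPolynomial.idealOfVars (Fin n) k).map
    (Ideal.Quotient.mk (MvPolynomial.idealOfVars (Fin n) k ^ j))
      = Ideal.span (Set.range (tvar k n j)) := by
  show (Ideal.span (Set.range MvPolynomial.X)).map _ = _
  rw [Ideal.map_span, ← Set.range_comp]
  rfl

theorem trunc_pow_eq_bot : Ideal.span (Set.range (tvar k n j)) ^ j = ⊥ := by
  rw [← map_idealOfVars, ← Ideal.map_pow, Ideal.map_quotient_self]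

theorem trunc_sub_mem (p : Trunc k n j) :
    ∃ c : k, p - algebraMap k (Trunc k n j) c ∈ Ideal.span (Set.range (tvar k n j)) := by
  obtain ⟨f, rfl⟩ := Ideal.Quotient.mk_surjective p
  refine ⟨MvPolynomial.coeff 0 f, ?_⟩
  rw [← map_idealOfVars, ← Ideal.Quotient.mk_algebraMap, ← map_sub]
  refine Ideal.mem_map_of_mem _ ?_
  rw [← pow_one (MvPolynomial.idealOfVars (Fin n) k), MvPolynomial.mem_pow_idealOfVars_iff']
  intro x hx
  have hx0 : x = 0 := by
    rw [← Finsupp.degree_eq_zero_iff]
    omega
  simp [hx0, MvPolynomial.algebraMap_eq]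

theorem span_mon_eq_top {Q : Type*} [CommRing Q] [Algebra k Q] {N : ℕ} (z : Fin N → Q)
    (hsur : ∀ q : Q, ∃ c : k, q - algebraMap k Q c ∈ Ideal.span (Set.range z)) {s : ℕ}
    (hs : Ideal.span (Set.range z) ^ s = ⊥) :
    Submodule.span k (mon z '' ((range s).biUnion (degSet N) : Set (Fin N → ℕ))) = ⊤ := by
  set W := Submodule.span k (mon z '' ((range s).biUnion (degSet N) : Set (Fin N → ℕ)))
  suffices ∀ e, e ≤ s → (Ideal.span (Set.range z) ^ (s - e)).restrictScalars k ≤ W by
    have := this s le_rfl
    rwa [Nat.sub_self, pow_zero, Ideal.one_eq_top, Submodule.restrictScalars_top, top_le_iff] at this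
  intro e he
  induction e with
  | zero => simp [hs]
  | succ e ih =>
    rw [pow_eq_span_sup z hsur (s - (e + 1))]
    refine sup_le (Submodule.span_mono (Set.image_mono ?_)) ?_
    · intro x hx
      simp only [coe_biUnion, coe_range, Set.mem_iUnion]
      exact ⟨s - (e + 1), by simp; omega, hx⟩
    · rw [show s - (e + 1) + 1 = s - e by omega]
      exact ih (by omega)

open scoped Classical in
theorem trunc_finite : Module.Finite k (Trunc k n j) :=
  ⟨⟨((range j).biUnion (degSet n)).image (mon (tvar k n j)), by
    rw [coe_image]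
    exact span_mon_eq_top _ (trunc_sub_mem (k := k) n j) (trunc_pow_eq_bot (k := k) n j)⟩⟩

/-- Monomials of degree below `b` are independent modulo the power `b`. -/
theorem trunc_lower {b : ℕ} (hb : b ≤ j) :
    ∑ e ∈ range b, Nat.multichoose n e
      ≤ Module.finrank k (Trunc k n j ⧸ (Ideal.span (Set.range (tvar k n j)) ^ b).restrictScalars k) := by
  classical
  have := trunc_finite (k := k) n j
  let σ := Σ e : Fin b, Sym (Fin n) e
  let F : MvPolynomial (Fin n) k →ₗ[k] (σ → k) :=
    LinearMap.pi fun s => MvPolynomial.lcoeff k (Multiset.toFinsupp (s.2 : Multiset (Fin n)))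
  have hF : Function.Surjective F := by
    intro w
    refine ⟨∑ s : σ, MvPolynomial.monomial (Multiset.toFinsupp (s.2 : Multiset (Fin n))) (w s), ?_⟩
    funext t
    simp only [F, LinearMap.pi_apply, MvPolynomial.lcoeff_apply, MvPolynomial.coeff_sum,
      MvPolynomial.coeff_monomial]
    rw [sum_eq_single t (fun s _ hs => if_neg fun h => hs ?_) (by simp), if_pos rfl]
    have h' := Multiset.toFinsupp.injective h
    obtain ⟨⟨e, he⟩, s⟩ := s
    obtain ⟨⟨e', he'⟩, t⟩ := t
    obtain rfl : e = e' := by
      have := congrArg Multiset.card h'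
      simpa using this
    obtain rfl : s = t := Sym.coe_injective h'
    rfl
  have hker : (MvPolynomial.idealOfVars (Fin n) k ^ b).restrictScalars k ≤ LinearMap.ker F := by
    intro f hf
    refine funext fun s => (MvPolynomial.mem_pow_idealOfVars_iff' b f).1 hf _ ?_
    rw [Finsupp.degree_eq_sum]
    simp only [Multiset.toFinsupp_apply]
    rw [Multiset.sum_count_eq_card (fun a _ => mem_univ a)]
    exact lt_of_eq_of_lt s.2.2 s.1.2
  set M := Ideal.span (Set.range (tvar k n j)) with hM
  let π : MvPolynomial (Fin n) k →ₗ[k] Trunc k n j ⧸ (M ^ b).restrictScalars k :=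
    ((M ^ b).restrictScalars k).mkQ ∘ₗ (Ideal.Quotient.mkₐ k _).toLinearMap
  have hπ : LinearMap.ker π ≤ LinearMap.ker F := by
    intro f hf
    simp only [π, LinearMap.mem_ker, LinearMap.comp_apply, Submodule.mkQ_apply,
      Submodule.Quotient.mk_eq_zero, Submodule.restrictScalars_mem] at hf
    change Ideal.Quotient.mk _ f ∈ M ^ b at hf
    rw [hM, ← map_idealOfVars, ← Ideal.map_pow, Ideal.mem_quotient_iff_mem_sup,
      sup_eq_left.2 (Ideal.pow_le_pow_right hb)] at hf
    exact hker hf
  have hsurj : Function.Surjective π :=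
    (Submodule.mkQ_surjective _).comp Ideal.Quotient.mk_surjective
  let G := (LinearMap.ker π).liftQ F hπ ∘ₗ (π.quotKerEquivOfSurjective hsurj).symm.toLinearMap
  have hG : Function.Surjective G := by
    rw [← LinearMap.range_eq_top, LinearMap.range_comp_of_range_eq_top _ (LinearEquiv.range _),
      Submodule.range_liftQ, LinearMap.range_eq_top]
    exact hF
  have hle := G.finrank_range_le
  rw [LinearMap.range_eq_top.2 hG, finrank_top, Module.finrank_pi, Fintype.card_sigma] at hle
  refine le_trans (le_of_eq ?_) hle
  rw [← Fin.sum_univ_eq_sum_range]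
  exact sum_congr rfl fun e _ => by rw [Sym.card_sym_eq_multichoose, Fintype.card_fin]

end Poly

end Vale.Agent.P202.Embdim2
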