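import Vale.Agent.P202.Embdim2.Pair
import Vale.Agent.P202.Embdim2.Model

/-! A free algebra over a truncated polynomial ring lifting an algebra with a monomial basis in
two elements. -/

namespace Vale.Agent.P202.Embdim2

open Finset Matrix
open scoped IsMulCommutative

universe u

theorem sup_eq_top_of_nilpotent {R M : Type*} [CommRing R] [AddCommGroup M] [Module R M]
    (W : Submodule R M) (I : Ideal R) {s : ℕ} (hs : I ^ s • (⊤ : Submodule R M) = ⊥)
    (h : W ⊔ I • ⊤ = ⊤) : W = ⊤ := by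
  have : ∀ i, W ⊔ I ^ i • ⊤ = ⊤ := by
    intro i
    induction i with
    | zero => simp
    | succ i ih =>
      rw [eq_top_iff]
      calc ⊤ = W ⊔ I ^ i • ⊤ := ih.symm
        _ = W ⊔ I ^ i • (W ⊔ I • ⊤) := by rw [h]
        _ ≤ W ⊔ I ^ (i + 1) • ⊤ := by
          rw [Submodule.smul_sup, pow_succ, Submodule.mul_smul, ← sup_assoc]
          exact sup_le_sup_right (sup_le le_rfl Submodule.smul_le_right) _
  simpa [hs] using this s

theorem mapMatrix_algebraMap {k P A ι : Type*} [CommSemiring k] [CommSemiring P] [CommSemiring A]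
    [Algebra k P] [Algebra k A] [Fintype ι] [DecidableEq ι] (φ : P →ₐ[k] A) (p : P) :
    (algebraMap P (Matrix ι ι P) p).map φ = algebraMap A (Matrix ι ι A) (φ p) := by
  simp only [Matrix.algebraMap_eq_diagonal, Matrix.diagonal_map (map_zero φ)]
  rfl

variable {k : Type*} {R' : Type*} {S' : Type*} [Field k] [CommRing R'] [Algebra k R'] [CommRing S']
  [Algebra R' S'] [Algebra k S'] [IsScalarTower k R' S'] {ι : Type*} [Fintype ι] [DecidableEq ι]
  {n j : ℕ}

theorem mem_span_of_residue (φ : Trunc k n j →ₐ[k] R') (ev : R' →ₐ[k] k)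
    (hev : ∀ l, ev (φ (tvar k n j l)) = 0) (p : Trunc k n j) :
    ev (φ p) = 0 ↔ p ∈ Ideal.span (Set.range (tvar k n j)) := by
  have hle : Ideal.span (Set.range (tvar k n j)) ≤ RingHom.ker (ev.comp φ).toRingHom :=
    Ideal.span_le.2 (by rintro _ ⟨l, rfl⟩; exact hev l)
  refine ⟨fun hp => ?_, fun hp => hle hp⟩
  obtain ⟨c, hc⟩ := trunc_sub_mem (k := k) n j p
  have h : ev (φ (p - algebraMap k _ c)) = 0 := hle hc
  rw [map_sub, map_sub, hp, AlgHom.commutes, AlgHom.commutes, zero_sub, neg_eq_zero] at h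
  have h0 : c = 0 := h
  rwa [h0, map_zero, sub_zero] at hc

/-- The lifted algebra with its monomial basis and its map to the given algebra. -/
theorem exists_lifted [CharZero k] (φ : Trunc k n j →ₐ[k] R') (hφ : Function.Surjective φ)
    (ev : R' →ₐ[k] k) (hev : ∀ l, ev (φ (tvar k n j l)) = 0)
    (bw : Module.Basis ι R' S') (x y : S') (a b : ι → ℕ)
    (hbw : ∀ l, bw l = x ^ a l * y ^ b l) :
    ∃ (Q : Subalgebra (Trunc k n j) (Matrix ι ι (Trunc k n j))) (_ : IsMulCommutative Q)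
      (xQ yQ : Q) (bQ : Module.Basis ι (Trunc k n j) Q) (ψ : Q →ₐ[k] S'),
      (∀ l, bQ l = xQ ^ a l * yQ ^ b l) ∧ ψ xQ = x ∧ ψ yQ = y ∧
      ∀ p, ψ (algebraMap (Trunc k n j) Q p) = algebraMap R' S' (φ p) := by
  classical
  have hfinP := trunc_finite (k := k) n j
  let X₀ := Algebra.leftMulMatrix bw x
  let Y₀ := Algebra.leftMulMatrix bw y
  let r₁ : ι → R' := bw.repr 1
  have hmon : ∀ l, (X₀ ^ a l * Y₀ ^ b l) *ᵥ r₁ = Pi.single l 1 := fun l => by
    show (Algebra.leftMulMatrix bw x ^ a l * Algebra.leftMulMatrix bw y ^ b l) *ᵥ r₁ = _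
    rw [← map_pow, ← map_pow, ← map_mul, Algebra.leftMulMatrix_mulVec_repr, mul_one, ← hbw,
      Module.Basis.repr_self]
    funext l'
    rw [Finsupp.single_apply, Pi.single_apply]
    simp [eq_comm]
  have hbasis : Submodule.span k (Set.range fun l =>
      (X₀.map ev ^ a l * Y₀.map ev ^ b l) *ᵥ fun l' => ev (r₁ l')) = ⊤ := by
    rw [eq_top_iff, ← (Pi.basisFun k ι).span_eq, Submodule.span_le]
    rintro _ ⟨l, rfl⟩
    refine Submodule.subset_span ⟨l, ?_⟩
    let f := ev.toRingHom.mapMatrix (m := ι)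
    funext l'
    have h := RingHom.map_mulVec ev.toRingHom (X₀ ^ a l * Y₀ ^ b l) r₁ l'
    rw [hmon l] at h
    have hf : (X₀ ^ a l * Y₀ ^ b l).map ev = X₀.map ev ^ a l * Y₀.map ev ^ b l := by
      show f _ = f X₀ ^ a l * f Y₀ ^ b l
      rw [map_mul, map_pow, map_pow]
    simp only [AlgHom.toRingHom_eq_coe, RingHom.coe_coe] at h
    show ((X₀.map ev ^ a l * Y₀.map ev ^ b l) *ᵥ fun l' => ev (r₁ l')) l' = _
    rw [Pi.basisFun_apply, ← hf]
    refine h.symm.trans ?_
    rcases eq_or_ne l' l with rfl | hne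
    · simp
    · simp [hne]
  obtain ⟨X, Y, hX, hY, hXY⟩ := exists_lift φ hφ ev (Ideal.span (Set.range (tvar k n j)))
    (trunc_sub_mem n j) (fun p hp => (mem_span_of_residue φ ev hev p).2 hp)
    (trunc_pow_eq_bot n j) X₀ Y₀ ((Commute.all x y).map (Algebra.leftMulMatrix bw))
    (fun l' => ev (r₁ l')) a b hbasis
  let Q := Algebra.adjoin (Trunc k n j) ({X, Y} : Set (Matrix ι ι (Trunc k n j)))
  have hcomm : ∀ u ∈ ({X, Y} : Set (Matrix ι ι (Trunc k n j))),
      ∀ v ∈ ({X, Y} : Set (Matrix ι ι (Trunc k n j))), u * v = v * u := by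
    rintro u (rfl | rfl) v (rfl | rfl)
    exacts [rfl, hXY.eq, hXY.eq.symm, rfl]
  have hQc : IsMulCommutative Q := Algebra.isMulCommutative_adjoin _ hcomm
  let xQ : Q := ⟨X, Algebra.subset_adjoin (Set.mem_insert X {Y})⟩
  let yQ : Q := ⟨Y, Algebra.subset_adjoin (Set.mem_insert_of_mem X rfl)⟩
  choose sec hsec using hφ
  let r₁' : ι → Trunc k n j := fun l => sec (r₁ l)
  let evQ : Q →ₗ[Trunc k n j] (ι → Trunc k n j) :=
    { toFun := fun q => (q : Matrix ι ι (Trunc k n j)) *ᵥ r₁'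
      map_add' := fun q q' => by simp [Matrix.add_mulVec]
      map_smul' := fun c q => by simp [Matrix.smul_mulVec] }
  let Φ : (ι → Trunc k n j) →ₗ[Trunc k n j] Q :=
    Fintype.linearCombination (Trunc k n j) fun l => xQ ^ a l * yQ ^ b l
  have hsurj : Function.Surjective (evQ ∘ₗ Φ) := by
    rw [← LinearMap.range_eq_top]
    refine sup_eq_top_of_nilpotent _ (Ideal.span (Set.range (tvar k n j))) (s := j)
      (by rw [trunc_pow_eq_bot]; simp) ?_
    rw [eq_top_iff]
    intro u _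
    rw [← add_sub_cancel (evQ (Φ u)) u]
    refine Submodule.add_mem_sup ⟨u, rfl⟩ ?_
    rw [← Finset.univ_sum_single (u - evQ (Φ u))]
    refine sum_mem fun l _ => ?_
    have hval : φ (evQ (Φ u) l) = φ (u l) := by
      have hmap : ∀ (q : Q), φ (evQ q l) = ((q : Matrix ι ι (Trunc k n j)).map φ *ᵥ r₁) l := by
        intro q
        simp [evQ, Matrix.mulVec, dotProduct, r₁', hsec]
      let f := φ.toRingHom.mapMatrix (m := ι)
      have hX' : f X = X₀ := hX
      have hY' : f Y = Y₀ := hY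
      rw [Fintype.linearCombination_apply, map_sum, Finset.sum_apply, map_sum]
      have : ∀ l', φ (evQ (u l' • (xQ ^ a l' * yQ ^ b l')) l)
          = if l = l' then φ (u l') else 0 := fun l' => by
        rw [map_smul, Pi.smul_apply, smul_eq_mul, map_mul, hmap]
        show φ (u l') * ((f (X ^ a l' * Y ^ b l')) *ᵥ r₁) l = _
        rw [map_mul, map_pow, map_pow, hX', hY', hmon, Pi.single_apply, mul_ite, mul_one, mul_zero]
      rw [sum_congr rfl fun l' _ => this l', Finset.sum_ite_eq, if_pos (mem_univ l)]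
    have hz : (u - evQ (Φ u)) l ∈ Ideal.span (Set.range (tvar k n j)) := by
      rw [← mem_span_of_residue φ ev hev, Pi.sub_apply, map_sub, hval, sub_self, map_zero]
    have : Pi.single l ((u - evQ (Φ u)) l)
        = ((u - evQ (Φ u)) l) • (Pi.single l 1 : ι → Trunc k n j) := by
      funext l'
      rcases eq_or_ne l' l with rfl | h <;> simp [*]
    rw [this]
    exact Submodule.smul_mem_smul hz Submodule.mem_top
  have hinjev : Function.Injective evQ := by
    rw [injective_iff_map_eq_zero]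
    intro q hq
    refine Subtype.ext (Matrix.ext_iff_mulVec.2 fun v => ?_)
    obtain ⟨w, rfl⟩ := hsurj v
    show (q : Matrix ι ι (Trunc k n j)) *ᵥ (((Φ w : Q) : Matrix ι ι _) *ᵥ r₁') = _
    rw [Matrix.mulVec_mulVec, show (q : Matrix ι ι (Trunc k n j)) * (Φ w : Q) = (Φ w : Q) * q from
      congrArg Subtype.val (mul_comm q (Φ w)), ← Matrix.mulVec_mulVec]
    show ((Φ w : Q) : Matrix ι ι (Trunc k n j)) *ᵥ (evQ q) = _
    rw [hq]
    simp
  have hΦ : Function.Bijective Φ := by
    have hinj : Function.Injective (evQ ∘ₗ Φ) :=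
      OrzechProperty.injective_of_surjective_endomorphism _ hsurj
    refine ⟨fun u v h => hinj (congrArg evQ h), fun q => ?_⟩
    obtain ⟨w, hw⟩ := hsurj (evQ q)
    exact ⟨w, hinjev hw⟩
  let bQ := Module.Basis.ofEquivFun (LinearEquiv.ofBijective Φ hΦ).symm
  have hbQ : ∀ l, bQ l = xQ ^ a l * yQ ^ b l := fun l => by
    simp [bQ, Module.Basis.coe_ofEquivFun, Φ, Fintype.linearCombination_apply_single]
  have hmat : ∀ q : Q, ∃ s, (q : Matrix ι ι (Trunc k n j)).map φ = Algebra.leftMulMatrix bw s := by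
    rintro ⟨q, hq⟩
    let f := φ.toRingHom.mapMatrix (m := ι)
    show ∃ s, f q = Algebra.leftMulMatrix bw s
    induction hq using Algebra.adjoin_induction with
    | mem u hu =>
      rcases hu with rfl | rfl
      · exact ⟨x, hX⟩
      · exact ⟨y, hY⟩
    | algebraMap p =>
      refine ⟨algebraMap R' S' (φ p), ?_⟩
      rw [AlgHom.commutes]
      exact mapMatrix_algebraMap φ p
    | add u v _ _ hu hv =>
      obtain ⟨s, hs⟩ := hu
      obtain ⟨s', hs'⟩ := hv
      exact ⟨s + s', by rw [map_add, hs, hs', map_add]⟩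
    | mul u v _ _ hu hv =>
      obtain ⟨s, hs⟩ := hu
      obtain ⟨s', hs'⟩ := hv
      exact ⟨s * s', by rw [map_mul, hs, hs', map_mul]⟩
  choose ψ₀ hψ₀ using hmat
  have hψ₀eq : ∀ (q : Q) s, (q : Matrix ι ι (Trunc k n j)).map φ = Algebra.leftMulMatrix bw s →
      ψ₀ q = s := fun q s h => Algebra.leftMulMatrix_injective bw ((hψ₀ q).symm.trans h)
  let ψ : Q →ₐ[k] S' :=
    { toFun := ψ₀
      map_one' := hψ₀eq _ _ (by simp)
      map_mul' := fun q q' => hψ₀eq _ _ (by
        rw [map_mul, ← hψ₀, ← hψ₀]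
        exact map_mul φ.toRingHom.mapMatrix _ _)
      map_zero' := hψ₀eq _ _ (by simp)
      map_add' := fun q q' => hψ₀eq _ _ (by
        rw [map_add, ← hψ₀, ← hψ₀]
        exact map_add φ.toRingHom.mapMatrix _ _)
      commutes' := fun c => hψ₀eq _ _ (by
        rw [IsScalarTower.algebraMap_apply k R' S', AlgHom.commutes,
          ← IsScalarTower.algebraMap_apply]
        exact (φ.mapMatrix (m := ι)).commutes c) }
  refine ⟨Q, hQc, xQ, yQ, bQ, ψ, hbQ, hψ₀eq _ _ hX, hψ₀eq _ _ hY, fun p => hψ₀eq _ _ ?_⟩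
  rw [AlgHom.commutes]
  exact mapMatrix_algebraMap φ p

end Vale.Agent.P202.Embdim2
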