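import Vale.Agent.P202.Embdim2.Lift

/-! Lifting a commuting pair with a cyclic vector along a surjection of artinian algebras. -/

namespace Vale.Agent.P202.Embdim2

open Matrix

/-- The lift of a commuting pair. -/
theorem exists_lift {k P R' ι : Type*} [Field k] [CharZero k] [CommRing P] [Algebra k P]
    [Module.Finite k P] [CommRing R'] [Algebra k R'] [Fintype ι] [DecidableEq ι]
    (φ : P →ₐ[k] R') (hφ : Function.Surjective φ) (ev : R' →ₐ[k] k) (M : Ideal P)
    (hM : ∀ p, ∃ c : k, p - algebraMap k P c ∈ M) (hMev : ∀ p ∈ M, ev (φ p) = 0)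
    {s : ℕ} (hMs : M ^ s = ⊥) (X₀ Y₀ : Matrix ι ι R') (hc : Commute X₀ Y₀) (e : ι → k) (a b : ι → ℕ)
    (hbasis : Submodule.span k
      (Set.range fun l => (X₀.map ev ^ a l * Y₀.map ev ^ b l) *ᵥ e) = ⊤) :
    ∃ X Y : Matrix ι ι P, X.map φ = X₀ ∧ Y.map φ = Y₀ ∧ Commute X Y := by
  classical
  set K := RingHom.ker φ.toRingHom with hK
  let f := φ.toRingHom.mapMatrix (m := ι)
  suffices ∀ t, ∃ X Y : Matrix ι ι P, X.map φ = X₀ ∧ Y.map φ = Y₀ ∧
      ∀ i j, (X * Y - Y * X) i j ∈ K ⊓ M ^ t by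
    obtain ⟨X, Y, hX, hY, h⟩ := this s
    refine ⟨X, Y, hX, hY, sub_eq_zero.1 (Matrix.ext fun i j => ?_)⟩
    have := (h i j).2
    rwa [hMs] at this
  intro t
  induction t with
  | zero =>
    choose g hg using hφ
    refine ⟨X₀.map g, Y₀.map g, by ext; simp [hg], by ext; simp [hg], fun i j => ⟨?_, ?_⟩⟩
    · show φ ((X₀.map g * Y₀.map g - Y₀.map g * X₀.map g) i j) = 0
      have hX : f (X₀.map g) = X₀ := by ext; simp [f, hg]
      have hY : f (Y₀.map g) = Y₀ := by ext; simp [f, hg]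
      have h0 : f (X₀.map g * Y₀.map g - Y₀.map g * X₀.map g) = 0 := by
        rw [map_sub, map_mul, map_mul, hX, hY, sub_eq_zero]
        exact hc
      exact congrFun (congrFun h0 i) j
    · simp
  | succ t ih =>
    obtain ⟨X, Y, hX, hY, hXY⟩ := ih
    set L : Ideal P := K ⊓ M ^ (t + 1) with hL
    let π := Ideal.Quotient.mkₐ k L
    let ε : P →ₐ[k] k := ev.comp φ
    have hLε : ∀ p ∈ L, ε p = 0 := fun p hp => by
      have h : φ p = 0 := hp.1
      show ev (φ p) = 0
      rw [h, map_zero]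
    let εQ : P ⧸ L →ₐ[k] k := Ideal.Quotient.liftₐ L ε hLε
    have hεQ : ∀ p, εQ (π p) = ev (φ p) := fun p => rfl
    let J : Submodule k (P ⧸ L) := ((K ⊓ M ^ t).restrictScalars k).map π.toLinearMap
    have hJ : ∀ c ∈ J, ∀ u, c * u = c * algebraMap k (P ⧸ L) (εQ u) := by
      rintro _ ⟨c, hc', rfl⟩ u
      obtain ⟨u, rfl⟩ := Ideal.Quotient.mkₐ_surjective k L u
      change π c * π u = π c * algebraMap k (P ⧸ L) (εQ (π u))
      rw [hεQ, ← AlgHom.commutes π, ← map_mul, ← map_mul]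
      refine Ideal.Quotient.eq.2 ?_
      rw [← mul_sub]
      refine ⟨Ideal.mul_mem_right _ _ hc'.1, ?_⟩
      show c * (u - algebraMap k P (ev (φ u))) ∈ M ^ (t + 1)
      rw [pow_succ]
      refine Ideal.mul_mem_mul hc'.2 ?_
      obtain ⟨γ, hγ⟩ := hM u
      have h := hMev _ hγ
      rw [map_sub, map_sub, AlgHom.commutes, AlgHom.commutes, Algebra.algebraMap_self,
        RingHom.id_apply, sub_eq_zero] at h
      rw [h]
      exact hγ
    have hJ' : ∀ c ∈ J, εQ c = 0 := by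
      rintro _ ⟨c, hc', rfl⟩
      show εQ (π c) = 0
      have h : φ c = 0 := hc'.1
      rw [hεQ, h, map_zero]
    let fπ := π.toRingHom.mapMatrix (m := ι)
    have hC : ∀ i j, (fπ X * fπ Y - fπ Y * fπ X) i j ∈ J := fun i j => by
      rw [← map_mul, ← map_mul, ← map_sub]
      exact ⟨_, hXY i j, rfl⟩
    have hmapε : ∀ Z : Matrix ι ι P, (fπ Z).map εQ = (Z.map φ).map ev := fun Z => by
      ext i j; rfl
    obtain ⟨A, B, hA, hB, hAB⟩ := lift_step εQ J hJ hJ' (fπ X) (fπ Y) hC e a b (by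
      simp only [hmapε, hX, hY]
      exact hbasis)
    choose A' hA' hA'' using hA
    choose B' hB' hB'' using hB
    have hφA : ∀ i j, φ (A' i j) = 0 := fun i j => (hA' i j).1
    have hφB : ∀ i j, φ (B' i j) = 0 := fun i j => (hB' i j).1
    refine ⟨X + Matrix.of A', Y + Matrix.of B', ?_, ?_, fun i j => ?_⟩
    · ext i j; simp [← hX, hφA]
    · ext i j; simp [← hY, hφB]
    · have hA3 : fπ (Matrix.of A') = A := Matrix.ext hA''
      have hB3 : fπ (Matrix.of B') = B := Matrix.ext hB''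
      have h0 : fπ ((X + Matrix.of A') * (Y + Matrix.of B')
          - (Y + Matrix.of B') * (X + Matrix.of A')) = 0 := by
        rw [map_sub, map_mul, map_mul, map_add, map_add, hA3, hB3, sub_eq_zero]
        exact hAB
      exact Ideal.Quotient.eq_zero_iff_mem.1 (congrFun (congrFun h0 i) j)

end Vale.Agent.P202.Embdim2
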